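import Vale.Agent.P078.MKS.Edge
import Vale.Agent.P078.MKS.Step

/-!
P061, vertex-transitive graphs: a two colouring of vectors in isotropic position (Marcus, Spielman
and Srivastava), in the form needed for splitting a quadratic form in two halves.
-/

noncomputable section

namespace Vale.P061.Transitive

open Finset Filter Topology
open Vale.Agent.P078.MKS
open scoped Matrix ComplexOrder

variable {V : Type} [Fintype V] [DecidableEq V]

/-- The uniform weights of two colours. -/
def half (V : Type) : V → Fin 2 → ℝ := fun _ _ => 1 / 2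

omit [Fintype V] [DecidableEq V] in
lemma isProb_half : IsProb (half V) := fun _ => ⟨fun _ => by norm_num [half], by simp [half]⟩

lemma soft_nonneg (t g x : ℝ) : 0 ≤ soft t g x := by
  have h := (Real.neg_pi_div_two_lt_arctan ((x - t) / g)).le
  unfold soft
  rw [div_add_div _ _ two_ne_zero Real.pi_ne_zero]
  exact div_nonneg (by linarith) (by positivity)

lemma half_le_soft {t g x : ℝ} (hg : 0 < g) (hx : t ≤ x) : 1 / 2 ≤ soft t g x := by
  have h : 0 ≤ Real.arctan ((x - t) / g) :=
    Real.arctan_nonneg.2 (div_nonneg (by linarith) hg.le)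
  unfold soft
  linarith [div_nonneg h Real.pi_pos.le]

/-- One greedy step: if all roots are below `t`, some colour at `k` keeps them below `t`. -/
lemma exists_step {X : Matrix V V ℂ} (hX : X.IsHermitian) {p : V → Fin 2 → ℝ} (hp : IsProb p)
    (k : V) (t : ℝ) (hroots : ∀ z ∈ (charMix X p univ).roots, z.re < t) :
    ∃ s, ∀ z ∈ (charMix X (setColour p k s) univ).roots, z.re < t := by
  have hlim : Tendsto (fun g => rootSum (soft t g) (charMix X p univ)) (𝓝[>] 0) (𝓝 0) := by
    have h := tendsto_multiset_sum (charMix X p univ).roots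
      fun z hz => tendsto_soft_zero (x := t) (l := z.re) (hroots z hz).ne
    have h0 : ((charMix X p univ).roots.map fun z => if t ≤ z.re then (1 : ℝ) else 0).sum = 0 := by
      refine Multiset.sum_eq_zero fun y hy => ?_
      obtain ⟨z, hz, rfl⟩ := Multiset.mem_map.1 hy
      rw [if_neg (not_le.2 (hroots z hz))]
    rw [h0] at h
    exact h
  obtain ⟨g, hg, hg0⟩ := ((hlim.eventually (Iio_mem_nhds (by norm_num : (0 : ℝ) < 1 / 2))).and
    self_mem_nhdsWithin).exists
  obtain ⟨s, -, hs⟩ := exists_colour hX hp k t hg0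
  refine ⟨s, fun z hz => ?_⟩
  by_contra hle
  have h1 : soft t g z.re ≤
      ((charMix X (setColour p k s) univ).roots.map fun z => soft t g z.re).sum := by
    refine Multiset.single_le_sum (fun y hy => ?_) _ (Multiset.mem_map_of_mem _ hz)
    obtain ⟨u, -, rfl⟩ := Multiset.mem_map.1 hy
    exact soft_nonneg _ _ _
  have h2 := half_le_soft hg0 (not_lt.1 hle)
  have h3 : rootSum (soft t g) (charMix X p univ) < 1 / 2 := hg
  unfold rootSum at hs h3
  linarith

/-- Some colouring keeps the roots of the pinched matrix below `t`. -/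
lemma exists_colouring {X : Matrix V V ℂ} (hX : X.IsHermitian) (t : ℝ)
    (hroots : ∀ z ∈ (charMix X (half V) univ).roots, z.re < t) :
    ∃ f : V → Fin 2, ∀ z ∈ (cut X f univ).charpoly.roots, z.re < t := by
  have key : ∀ S : Finset V, ∃ (p : V → Fin 2 → ℝ) (f : V → Fin 2), IsProb p ∧
      (∀ v ∈ S, p v = Pi.single (f v) 1) ∧ ∀ z ∈ (charMix X p univ).roots, z.re < t := by
    intro S
    induction S using Finset.induction_on with
    | empty => exact ⟨half V, fun _ => 0, isProb_half, by simp, hroots⟩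
    | insert k S hk ih =>
      obtain ⟨p, f, hp, hf, hz⟩ := ih
      obtain ⟨s, hs⟩ := exists_step hX hp k t hz
      refine ⟨setColour p k s, Function.update f k s, isProb_setColour hp k s, fun v hv => ?_, hs⟩
      rcases Finset.mem_insert.1 hv with rfl | hv
      · simp [setColour]
      · have hne : v ≠ k := fun h => hk (h ▸ hv)
        simp [setColour, hne, hf v hv]
  obtain ⟨p, f, -, hf, hz⟩ := key univ
  refine ⟨f, ?_⟩
  have he : charMix X p univ = (cut X f univ).charpoly := by
    have h1 : charMix X p univ = dpoly X f univ := by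
      rw [charMix_eq, Finset.sum_eq_single f ?_ (by simp)]
      · simp [cw, hf]
      · intro g _ hg
        obtain ⟨u, hu⟩ := Function.ne_iff.1 hg
        rw [Finset.prod_eq_zero (Finset.mem_univ u) (by simp [cw, hf, hu])]
        simp
    rw [h1, ← dpoly_mul]
    simp
  exact fun z h => hz z (he ▸ h)

/-- A Hermitian matrix whose characteristic roots are at most `t` has form at most `t`. -/
lemma form_le_of_roots {A : Matrix V V ℂ} (hA : A.IsHermitian) (t : ℝ)
    (h : ∀ z ∈ A.charpoly.roots, z.re ≤ t) (v : V → ℂ) :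
    (star v ⬝ᵥ A *ᵥ v).re ≤ t * ∑ a, ‖v a‖ ^ 2 := by
  have hB : ((t : ℂ) • (1 : Matrix V V ℂ) - A).IsHermitian := by
    refine Matrix.IsHermitian.sub ?_ hA
    ext a b
    by_cases hab : a = b
    · subst hab; simp
    · simp [hab, Ne.symm hab]
  have hpsd : ((t : ℂ) • (1 : Matrix V V ℂ) - A).PosSemidef := by
    rw [hB.posSemidef_iff_eigenvalues_nonneg]
    intro i
    set μ := hB.eigenvalues i with hμ
    have hv := hB.mulVec_eigenvectorBasis i
    rw [Matrix.sub_mulVec, Matrix.smul_mulVec, Matrix.one_mulVec] at hv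
    have hne : (hB.eigenvectorBasis i : V → ℂ) ≠ 0 := fun h0 =>
      hB.eigenvectorBasis.toBasis.ne_zero i (by ext a; exact congrFun h0 a)
    have hker : (Matrix.scalar V ((t : ℂ) - μ) - A) *ᵥ (hB.eigenvectorBasis i : V → ℂ) = 0 := by
      rw [Matrix.scalar_apply, ← Matrix.smul_one_eq_diagonal, Matrix.sub_mulVec,
        Matrix.smul_mulVec, Matrix.one_mulVec, sub_smul]
      rw [RCLike.real_smul_eq_coe_smul (K := ℂ)] at hv
      funext a
      have := congrFun hv a
      simp only [Pi.sub_apply, Pi.smul_apply, Pi.zero_apply, smul_eq_mul] at this ⊢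
      simp only [← hμ] at this
      linear_combination this
    have hdet := Matrix.exists_mulVec_eq_zero_iff.1 ⟨_, hne, hker⟩
    rw [← Matrix.eval_charpoly] at hdet
    have := h _ (Polynomial.mem_roots'.2 ⟨(Matrix.charpoly_monic A).ne_zero, hdet⟩)
    simp only [Complex.sub_re, Complex.ofReal_re, Pi.zero_apply] at this ⊢
    linarith
  have h1 := hpsd.re_dotProduct_nonneg v
  rw [Matrix.sub_mulVec, dotProduct_sub, Matrix.smul_mulVec, Matrix.one_mulVec,
    dotProduct_smul, map_sub] at h1
  have h2 : RCLike.re ((t : ℂ) • (star v ⬝ᵥ v)) = t * ∑ a, ‖v a‖ ^ 2 := by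
    simp [dotProduct, Finset.mul_sum, Complex.sq_norm, Complex.normSq_apply]
  rw [h2] at h1
  have h3 : RCLike.re (star v ⬝ᵥ A *ᵥ v) = (star v ⬝ᵥ A *ᵥ v).re := rfl
  linarith

/-- The root bound for two colours. -/
lemma edge_two_le {α : ℝ} (h0 : 0 < α) (h1 : α ≤ 1) :
    edge 0 α (1 + Real.sqrt α) 2 ≤ 1 / 2 + 5 * Real.sqrt α := by
  have hs : 0 < Real.sqrt α := Real.sqrt_pos.2 h0
  have hs1 : Real.sqrt α ≤ 1 := Real.sqrt_le_one.2 h1
  have hsq : Real.sqrt α ^ 2 = α := Real.sq_sqrt h0.le
  set s := Real.sqrt α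
  unfold edge
  set Φ := ((1 - α) / (1 + s - 0) + (α - 0) / (1 + s - 1)) / (1 - 0) with hΦ
  have hΦle : Φ ≤ (1 + s * (1 + s)) / (1 + s) := by
    rw [hΦ]
    simp only [sub_zero, div_one, add_sub_cancel_left]
    rw [show α / s = s by rw [← hsq]; field_simp]
    rw [div_add' _ _ _ (by positivity)]
    gcongr
    linarith
  have hΦpos : 0 < Φ := by
    rw [hΦ]
    simp only [sub_zero, div_one, add_sub_cancel_left]
    exact add_pos_of_nonneg_of_pos (div_nonneg (by linarith) (by linarith)) (div_pos h0 hs)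
  have h : (1 + s) / (1 + s * (1 + s)) ≤ 1 / Φ := by
    rw [div_le_div_iff₀ (by positivity) hΦpos]
    rw [le_div_iff₀ (by positivity)] at hΦle
    linarith
  have h' : (1 + s) - 4 * s ≤ (1 + s) / (1 + s * (1 + s)) := by
    rw [le_div_iff₀ (by positivity)]
    nlinarith [mul_le_mul_of_nonneg_left hs1 hs.le]
  push_cast
  linarith

/-- A matrix with form in `[0, 1]` and diagonal at most `α` has a two colouring such that the
pinched form is at most `1/2 + 6 √α`. -/
theorem exists_halving {X : Matrix V V ℂ} (hX : X.IsHermitian) {α : ℝ} (h0 : 0 < α) (h1 : α ≤ 1)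
    (hq : ∀ v : V → ℂ, 0 ≤ (star v ⬝ᵥ X *ᵥ v).re ∧ (star v ⬝ᵥ X *ᵥ v).re ≤ ∑ a, ‖v a‖ ^ 2)
    (hd : ∀ a, 0 ≤ (X a a).re ∧ (X a a).re ≤ α) :
    ∃ f : V → Fin 2, ∀ v : V → ℂ,
      (star v ⬝ᵥ cut X f univ *ᵥ v).re ≤ (1 / 2 + 6 * Real.sqrt α) * ∑ a, ‖v a‖ ^ 2 := by
  have hs : 0 < Real.sqrt α := Real.sqrt_pos.2 h0
  have hroots : ∀ z ∈ (charMix X (half V) univ).roots, z.re < 1 / 2 + 6 * Real.sqrt α := by
    intro z hz
    have h := Edge.edge_ok V 2 X 0 α (1 + Real.sqrt α) two_pos hX le_rfl h0.le h1 (by linarith)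
      (fun v => by simpa using hq v) hd z (by unfold half at hz; simpa using hz)
    linarith [edge_two_le h0 h1]
  obtain ⟨f, hf⟩ := exists_colouring hX _ hroots
  refine ⟨f, form_le_of_roots ?_ _ fun z hz => (hf z hz).le⟩
  ext a b
  simp only [Matrix.conjTranspose_apply, cut, Matrix.of_apply, Finset.mem_univ, and_self, if_true]
  by_cases h : f a = f b
  · simp [h, hX.apply a b]
  · simp [h, Ne.symm h]

end Vale.P061.Transitive
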