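import Vale.Agent.P061.Transitive.Colour

/-!
P061, vertex-transitive graphs: halving a quadratic form, and sampling with probabilities `2 ^ -τ`.
-/

noncomputable section

namespace Vale.P061.Transitive

open Finset
open scoped Matrix InnerProductSpace Classical

/-- A family of coordinates on a subspace with small leverage is split in two halves, each carrying
at most half of the squared norm up to `6 √α`. -/
lemma subspace_halving {ι : Type} [Fintype ι] [DecidableEq ι] (K : Submodule ℝ (EuclideanSpace ℝ ι))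
    (S : Finset ι) {α : ℝ} (h0 : 0 < α) (h1 : α ≤ 1)
    (hlev : ∀ e ∈ S, ∀ x ∈ K, x e ^ 2 ≤ α * ‖x‖ ^ 2) :
    ∃ A ⊆ S, ∀ x ∈ K, (∑ e ∈ A, x e ^ 2) ≤ (1 / 2 + 6 * Real.sqrt α) * ‖x‖ ^ 2 ∧
      (∑ e ∈ S \ A, x e ^ 2) ≤ (1 / 2 + 6 * Real.sqrt α) * ‖x‖ ^ 2 := by
  set P : EuclideanSpace ℝ ι → EuclideanSpace ℝ ι := fun z => K.starProjection z with hP
  have hsym : ∀ y z, ⟪P y, z⟫_ℝ = ⟪P y, P z⟫_ℝ := fun y z => by
    have h := K.starProjection_inner_eq_zero z (P y) (K.starProjection_apply_mem y)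
    rw [real_inner_comm, inner_sub_right] at h
    exact sub_eq_zero.1 h
  have hPle : ∀ y, ‖P y‖ ≤ ‖y‖ := fun y => K.norm_starProjection_apply_le y
  have hPK : ∀ x ∈ K, P x = x := fun x hx => Submodule.starProjection_eq_self_iff.2 hx
  set σ : S → EuclideanSpace ℝ ι := fun a => P (EuclideanSpace.single a.1 1) with hσ
  set comb : (S → ℝ) → EuclideanSpace ℝ ι :=
    fun y => ∑ a, y a • EuclideanSpace.single a.1 (1 : ℝ) with hcomb
  have hcombP : ∀ y, P (comb y) = ∑ a, y a • σ a := fun y => by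
    simp [hP, hcomb, hσ, map_sum]
  have hcombn : ∀ y, ‖comb y‖ ^ 2 = ∑ a, y a ^ 2 := fun y => by
    rw [← real_inner_self_eq_norm_sq, hcomb]
    simp only [sum_inner, inner_sum, real_inner_smul_left, real_inner_smul_right,
      EuclideanSpace.inner_single_left, PiLp.single_apply, map_one, one_mul]
    refine Finset.sum_congr rfl fun a _ => ?_
    rw [Finset.sum_eq_single a (fun b _ hb => by
      simp [Subtype.coe_injective.eq_iff, hb, Ne.symm hb]) (by simp)]
    simp [sq]
  have hnormP : ∀ y : S → ℝ, ‖∑ a, y a • σ a‖ ^ 2 = ∑ a, ∑ b, y a * (y b * ⟪σ a, σ b⟫_ℝ) :=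
    fun y => by
      rw [← real_inner_self_eq_norm_sq, sum_inner]
      simp only [inner_sum, real_inner_smul_left, real_inner_smul_right, Finset.mul_sum]
      try exact Finset.sum_congr rfl fun a _ => Finset.sum_congr rfl fun b _ => by ring
  set X : Matrix S S ℂ := Matrix.of fun a b => ((⟪σ a, σ b⟫_ℝ : ℝ) : ℂ) with hX
  have hXh : X.IsHermitian := by
    ext a b
    simp [hX, real_inner_comm]
  have hre : ∀ v : S → ℂ, (star v ⬝ᵥ X *ᵥ v).re =
      ‖∑ a, (v a).re • σ a‖ ^ 2 + ‖∑ a, (v a).im • σ a‖ ^ 2 := fun v => by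
    rw [hnormP, hnormP, ← Finset.sum_add_distrib]
    simp only [dotProduct, Matrix.mulVec, Complex.re_sum, Pi.star_apply, Finset.mul_sum]
    refine Finset.sum_congr rfl fun a _ => ?_
    rw [← Finset.sum_add_distrib]
    refine Finset.sum_congr rfl fun b _ => ?_
    simp [hX]
    ring
  have hsq : ∀ v : S → ℂ, ∑ a, ‖v a‖ ^ 2 = ∑ a, (v a).re ^ 2 + ∑ a, (v a).im ^ 2 := fun v => by
    rw [← Finset.sum_add_distrib]
    refine Finset.sum_congr rfl fun a _ => ?_
    rw [Complex.sq_norm, Complex.normSq_apply]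
    ring
  have hdiag : ∀ a, 0 ≤ (X a a).re ∧ (X a a).re ≤ α := fun a => by
    have he : (X a a).re = ‖σ a‖ ^ 2 := by
      simp only [hX, Matrix.of_apply, Complex.ofReal_re, real_inner_self_eq_norm_sq]
    rw [he]
    refine ⟨sq_nonneg _, ?_⟩
    have h := hlev a.1 a.2 (σ a) (K.starProjection_apply_mem _)
    have h2 : σ a a.1 = ‖σ a‖ ^ 2 := by
      rw [← real_inner_self_eq_norm_sq, hσ, ← hsym, EuclideanSpace.inner_single_right]
      simp
    rw [h2] at h
    rcases (sq_nonneg ‖σ a‖).lt_or_eq with hpos | h0'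
    · exact le_of_mul_le_mul_right (by nlinarith : ‖σ a‖ ^ 2 * ‖σ a‖ ^ 2 ≤ α * ‖σ a‖ ^ 2) hpos
    · rw [← h0']; exact h0.le
  obtain ⟨f, hf⟩ := exists_halving hXh h0 h1 (fun v => ⟨by rw [hre]; positivity, by
    rw [hre, hsq, ← hcombP, ← hcombP, ← hcombn, ← hcombn]
    exact add_le_add (pow_le_pow_left₀ (norm_nonneg _) (hPle _) 2)
      (pow_le_pow_left₀ (norm_nonneg _) (hPle _) 2)⟩) hdiag
  set c := 1 / 2 + 6 * Real.sqrt α
  have hc : 0 ≤ c := by positivity
  have key : ∀ i, ∀ x ∈ K, ∑ a : S with f a = i, x a.1 ^ 2 ≤ c * ‖x‖ ^ 2 := by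
    intro i x hx
    set y : S → ℝ := fun a => if f a = i then x a.1 else 0 with hy
    have hw := hf fun a => (y a : ℂ)
    have e1 : (star (fun a => (y a : ℂ)) ⬝ᵥ
        Vale.Agent.P078.MKS.cut X f univ *ᵥ fun a => (y a : ℂ)).re = ‖∑ a, y a • σ a‖ ^ 2 := by
      rw [hnormP]
      simp only [dotProduct, Matrix.mulVec, Complex.re_sum, Pi.star_apply, Finset.mul_sum]
      refine Finset.sum_congr rfl fun a _ => Finset.sum_congr rfl fun b _ => ?_
      simp only [Vale.Agent.P078.MKS.cut, hX, Matrix.of_apply, Finset.mem_univ, and_self, if_true,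
        hy]
      by_cases ha : f a = i <;> by_cases hb : f b = i
      · simp [ha, hb]; first | (left; ring) | tauto
      all_goals simp [ha, hb, Ne.symm]
      all_goals tauto
    have e2 : ∑ a, y a ^ 2 = ∑ a : S with f a = i, x a.1 ^ 2 := by
      rw [Finset.sum_filter]
      refine Finset.sum_congr rfl fun a _ => ?_
      by_cases ha : f a = i <;> simp [hy, ha]
    rw [e1] at hw
    simp only [Complex.norm_real, Real.norm_eq_abs, sq_abs] at hw
    have e3 : ∑ a, y a ^ 2 = ⟪x, ∑ a, y a • σ a⟫_ℝ := by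
      have h1 : ⟪x, P (comb y)⟫_ℝ = ⟪x, comb y⟫_ℝ := by
        have h := hsym x (comb y)
        rw [hPK x hx] at h
        exact h.symm
      rw [← hcombP, h1, hcomb, inner_sum]
      refine Finset.sum_congr rfl fun a _ => ?_
      rw [real_inner_smul_right, EuclideanSpace.inner_single_right]
      by_cases ha : f a = i <;> simp [hy, ha, sq]
    rw [← e2]
    have hcs := abs_real_inner_le_norm x (∑ a, y a • σ a)
    rw [← e3] at hcs
    set N := ∑ a, y a ^ 2
    have hN : 0 ≤ N := Finset.sum_nonneg fun a _ => sq_nonneg _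
    have h2 : N ^ 2 ≤ ‖x‖ ^ 2 * (c * N) := by
      calc N ^ 2 ≤ (‖x‖ * ‖∑ a, y a • σ a‖) ^ 2 :=
            pow_le_pow_left₀ hN ((le_abs_self _).trans hcs) 2
        _ ≤ ‖x‖ ^ 2 * (c * N) := by rw [mul_pow]; gcongr
    rcases hN.eq_or_lt with h | h
    · rw [← h]; positivity
    · nlinarith
  refine ⟨({a : S | f a = 0} : Finset S).map (Function.Embedding.subtype _), ?_, fun x hx => ?_⟩
  · intro e he
    obtain ⟨a, -, rfl⟩ := Finset.mem_map.1 he
    exact a.2
  · have hd : S \ ({a : S | f a = 0} : Finset S).map (Function.Embedding.subtype _) =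
        ({a : S | f a = 1} : Finset S).map (Function.Embedding.subtype _) := by
      ext e
      by_cases he : e ∈ S
      · simp [he, Fin.exists_fin_two]
        omega
      · simp [he]
    rw [hd, Finset.sum_map, Finset.sum_map]
    exact ⟨key 0 x hx, key 1 x hx⟩

variable {ι γ Z : Type} [Fintype ι] [Fintype γ] [AddCommGroup Z] [Module ℝ Z]

/-- The quadratic form of a family of functionals. -/
def Sq {α : Type} (s : Finset α) (c : α → ℝ) (v : α → Z →ₗ[ℝ] ℝ) (z : Z) : ℝ :=
  ∑ e ∈ s, c e * (v e z) ^ 2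

lemma Sq_nonneg {α : Type} (s : Finset α) {c : α → ℝ} (hc : ∀ e, 0 ≤ c e) (v : α → Z →ₗ[ℝ] ℝ)
    (z : Z) : 0 ≤ Sq s c v z :=
  Finset.sum_nonneg fun e _ => mul_nonneg (hc e) (sq_nonneg _)

/-- The form of the regulariser. -/
def Reg (g : γ → Z →ₗ[ℝ] ℝ) (z : Z) : ℝ := ∑ j, (g j z) ^ 2

lemma Reg_nonneg (g : γ → Z →ₗ[ℝ] ℝ) (z : Z) : 0 ≤ Reg g z :=
  Finset.sum_nonneg fun _ _ => sq_nonneg _

/-- One round of halving of the vectors in `A`, with regulariser `η • Reg g`. -/
lemma halving (v : ι → Z →ₗ[ℝ] ℝ) (g : γ → Z →ₗ[ℝ] ℝ) (A : Finset ι) {η α : ℝ} (hη : 0 ≤ η)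
    (h0 : 0 < α) (h1 : α ≤ 1) (hlev : ∀ e ∈ A, ∀ z, v e z ^ 2 ≤ α * (η * Reg g z)) :
    ∃ B ⊆ A, ∀ z,
      ∑ e ∈ B, v e z ^ 2 ≤ (1 / 2 + 6 * Real.sqrt α) * ((∑ e ∈ A, v e z ^ 2) + η * Reg g z) ∧
      ∑ e ∈ A \ B, v e z ^ 2 ≤
        (1 / 2 + 6 * Real.sqrt α) * ((∑ e ∈ A, v e z ^ 2) + η * Reg g z) := by
  set L : Z →ₗ[ℝ] EuclideanSpace ℝ (ι ⊕ γ) := (WithLp.linearEquiv 2 ℝ (ι ⊕ γ → ℝ)).symm.toLinearMap
    ∘ₗ LinearMap.pi (Sum.elim (fun e => if e ∈ A then v e else 0) fun j => Real.sqrt η • g j)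
    with hL
  have hnorm : ∀ z, ‖L z‖ ^ 2 = (∑ e ∈ A, v e z ^ 2) + η * Reg g z := fun z => by
    rw [EuclideanSpace.real_norm_sq_eq, Fintype.sum_sum_type]
    simp [hL, Reg, Finset.mul_sum, mul_pow, Real.sq_sqrt hη, apply_ite (fun l : Z →ₗ[ℝ] ℝ => l z),
      ite_pow]
  obtain ⟨B, hB, h⟩ := subspace_halving (LinearMap.range L) (A.map Function.Embedding.inl) h0 h1
    (by
      intro e he x hx
      obtain ⟨a, ha, rfl⟩ := Finset.mem_map.1 he
      obtain ⟨z, rfl⟩ := hx
      rw [hnorm]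
      calc L z (Sum.inl a) ^ 2 = v a z ^ 2 := by simp [hL, ha]
        _ ≤ α * (η * Reg g z) := hlev a ha z
        _ ≤ _ := by
          gcongr
          exact le_add_of_nonneg_left (Finset.sum_nonneg fun _ _ => sq_nonneg _))
  have hm : ∀ C : Finset ι, C ⊆ A → ∀ z,
      ∑ e ∈ C, v e z ^ 2 = ∑ e ∈ C.map Function.Embedding.inl, L z e ^ 2 := fun C hC z => by
    rw [Finset.sum_map]
    exact Finset.sum_congr rfl fun e he => by simp [hL, hC he]
  refine ⟨{e ∈ A | Sum.inl e ∈ B}, Finset.filter_subset _ _, fun z => ?_⟩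
  have hBeq : ({e ∈ A | Sum.inl e ∈ B} : Finset ι).map Function.Embedding.inl = B := by
    ext e
    constructor
    · intro he
      obtain ⟨a, ha, rfl⟩ := Finset.mem_map.1 he
      exact (Finset.mem_filter.1 ha).2
    · intro he
      obtain ⟨a, ha, rfl⟩ := Finset.mem_map.1 (hB he)
      exact Finset.mem_map_of_mem _ (Finset.mem_filter.2 ⟨ha, he⟩)
  rw [hm _ (Finset.filter_subset _ _), hm _ Finset.sdiff_subset, Finset.map_sdiff, hBeq, ← hnorm]
  exact h (L z) ⟨z, rfl⟩

/-- The current weight of an edge when `t` halvings remain. -/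
def wgt (τ : ι → ℕ) (t : ℕ) (e : ι) : ℝ := (1 / 2) ^ min t (τ e)

lemma step_arith {M M' MA MX MY B ε : ℝ} (hε : 0 ≤ ε) (hε6 : ε ≤ 1 / 6)
    (hM : M' = M - MA + 2 * MX) (hA0 : 0 ≤ MA) (hAM : MA ≤ M) (hB : 0 ≤ B)
    (hsum : MX + MY = MA) (hX : MX ≤ (1 / 2 + ε) * (MA + ε ^ 2 * B))
    (hY : MY ≤ (1 / 2 + ε) * (MA + ε ^ 2 * B)) :
    |M' - M| ≤ 5 * ε * (M + B) := by
  have h1 : (1 + 2 * ε) * (ε ^ 2 * B) ≤ ε * B := by
    have h : (1 + 2 * ε) * ε ≤ 1 := by nlinarith
    nlinarith [mul_le_mul_of_nonneg_right h (mul_nonneg hε hB)]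
  have h2 : ε * MA ≤ ε * M := mul_le_mul_of_nonneg_left hAM hε
  have h3 : 0 ≤ ε * B := mul_nonneg hε hB
  have h4 : 0 ≤ ε * M := mul_nonneg hε (hA0.trans hAM)
  rw [abs_le]
  constructor <;> nlinarith

/-- The reduction factor. -/
def rr : ℝ := 7 / 8

/-- The error scale. -/
def σ0 : ℝ := 1 / 4000

/-- Sampling every `e` with probability `2 ^ -τ e`, in the sense of quadratic forms. -/
theorem sample (E : Finset ι) (τ : ι → ℕ) (v : ι → Z →ₗ[ℝ] ℝ) (g : γ → Z →ₗ[ℝ] ℝ) {a : ℝ}
    (ha0 : 0 < a) (ha : a ≤ σ0 ^ 4) (hlev : ∀ e ∈ E, 1 ≤ τ e → ∀ z, v e z ^ 2 ≤ a * Reg g z) :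
    ∃ S ⊆ E, ∀ z, |∑ e ∈ S, v e z ^ 2 - Sq E (fun e => (1 / 2) ^ τ e) v z| ≤
      1 / 2 * (Sq E (fun e => (1 / 2) ^ τ e) v z + Reg g z) := by
  set T := Finset.univ.sup τ with hT
  set M0 := fun z => Sq E (fun e => (1 / 2 : ℝ) ^ τ e) v z with hM0
  set eps : ℕ → ℝ := fun t => 6 * (2 * σ0) * rr ^ t with heps
  have main : ∀ j ≤ T, ∃ S ⊆ E, (∀ e ∈ E, τ e ≤ T - j → e ∈ S) ∧ ∀ z,
      |Sq S (wgt τ (T - j)) v z - M0 z| ≤
        10 * (∑ t ∈ Finset.Ioc (T - j) T, eps t) * (M0 z + Reg g z) := by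
    intro j
    induction j with
    | zero =>
      intro _
      refine ⟨E, subset_rfl, fun e he _ => he, fun z => ?_⟩
      have : ∀ e, wgt τ (T - 0) e = (1 / 2 : ℝ) ^ τ e := fun e => by
        rw [wgt, Nat.sub_zero, min_eq_right (Finset.le_sup (f := τ) (Finset.mem_univ e))]
      simp only [hM0, Sq, this, sub_self, abs_zero, Nat.sub_zero, Finset.Ioc_self, Finset.sum_empty,
        mul_zero, zero_mul, le_refl]
      simp only [Nat.sub_zero] at this
      simp [this]
    | succ j ih =>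
      intro hj
      obtain ⟨S, hSE, hkeep, hS⟩ := ih (by omega)
      set t := T - j with ht
      have ht1 : 1 ≤ t := by omega
      have htj : T - (j + 1) = t - 1 := by omega
      set A := S.filter fun e => t ≤ τ e with hA
      set c : ℝ := (1 / 2) ^ t with hc
      have hc0 : 0 < c := by positivity
      set v' : ι → Z →ₗ[ℝ] ℝ := fun e => Real.sqrt c • v e with hv'
      have hv'2 : ∀ e z, v' e z ^ 2 = c * v e z ^ 2 := fun e z => by
        simp [hv', mul_pow, Real.sq_sqrt hc0.le]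
      set ε := eps t with hε
      have hε0 : 0 < ε := by rw [hε, heps]; unfold rr σ0; positivity
      have hr1 : rr ^ t ≤ 1 := pow_le_one₀ (by norm_num [rr]) (by norm_num [rr])
      have hε6 : ε ≤ 1 / 6 := by
        rw [hε, heps]
        have h : (0 : ℝ) ≤ 6 * (2 * σ0) := by norm_num [σ0]
        calc 6 * (2 * σ0) * rr ^ t ≤ 6 * (2 * σ0) * 1 := mul_le_mul_of_nonneg_left hr1 h
          _ ≤ 1 / 6 := by norm_num [σ0]
      set α : ℝ := (ε / 6) ^ 2 with hα
      have hα0 : 0 < α := by positivity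
      have hα1 : α ≤ 1 := pow_le_one₀ (by positivity) (by linarith)
      have hsqrt : 6 * Real.sqrt α = ε := by
        rw [hα, Real.sqrt_sq (by positivity)]; ring
      have hsmall : a * c ≤ α * ε ^ 2 := by
        have hc' : c ≤ (rr ^ 4) ^ t := pow_le_pow_left₀ (by norm_num) (by norm_num [rr]) t
        calc a * c ≤ σ0 ^ 4 * (rr ^ 4) ^ t := mul_le_mul ha hc' hc0.le (by norm_num [σ0])
          _ = (σ0 * rr ^ t) ^ 4 := by rw [← pow_mul, mul_comm 4 t, pow_mul, mul_pow]
          _ ≤ α * ε ^ 2 := by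
            rw [hα, hε, heps, ← mul_pow]
            rw [show (σ0 * rr ^ t) ^ 4 = ((σ0 * rr ^ t) ^ 2) ^ 2 by ring]
            have hp : 0 ≤ σ0 * rr ^ t := by unfold σ0 rr; positivity
            refine pow_le_pow_left₀ (sq_nonneg _) ?_ 2
            nlinarith [sq_nonneg (σ0 * rr ^ t)]
      obtain ⟨B, hBA, hB⟩ := halving v' g A (sq_nonneg ε) hα0 hα1 (fun e he z => by
        rw [hA, Finset.mem_filter] at he
        rw [hv'2, ← mul_assoc]
        calc c * v e z ^ 2 ≤ c * (a * Reg g z) :=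
              mul_le_mul_of_nonneg_left (hlev e (hSE he.1) (by omega) z) hc0.le
          _ = a * c * Reg g z := by ring
          _ ≤ α * ε ^ 2 * Reg g z := mul_le_mul_of_nonneg_right hsmall (Reg_nonneg g z))
      refine ⟨(S \ A) ∪ B, ?_, ?_, fun z => ?_⟩
      · exact Finset.union_subset (Finset.sdiff_subset.trans hSE)
          (hBA.trans ((Finset.filter_subset _ _).trans hSE))
      · intro e he hle
        exact Finset.mem_union_left _ (Finset.mem_sdiff.2 ⟨hkeep e he (by omega), fun h => by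
          rw [hA, Finset.mem_filter] at h; omega⟩)
      · have hdis : Disjoint (S \ A) B := Finset.disjoint_of_subset_right hBA Finset.sdiff_disjoint
        have hM' : Sq ((S \ A) ∪ B) (wgt τ (T - (j + 1))) v z =
            Sq S (wgt τ t) v z - ∑ e ∈ A, v' e z ^ 2 + 2 * ∑ e ∈ B, v' e z ^ 2 := by
          unfold Sq
          rw [Finset.sum_union hdis, ← Finset.sum_sdiff (Finset.filter_subset (fun e => t ≤ τ e) S),
            ← hA, htj, Finset.mul_sum]
          have e1 : ∑ e ∈ A, wgt τ t e * v e z ^ 2 = ∑ e ∈ A, v' e z ^ 2 :=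
            Finset.sum_congr rfl fun e he => by
              rw [hA, Finset.mem_filter] at he
              rw [hv'2, wgt, min_eq_left he.2]
          have e2 : ∑ e ∈ S \ A, wgt τ (t - 1) e * v e z ^ 2 =
              ∑ e ∈ S \ A, wgt τ t e * v e z ^ 2 := Finset.sum_congr rfl fun e he => by
            rw [Finset.mem_sdiff, hA, Finset.mem_filter, not_and] at he
            have := he.2 he.1
            rw [wgt, wgt, min_eq_right (by omega), min_eq_right (by omega)]
          have e3 : ∑ e ∈ B, wgt τ (t - 1) e * v e z ^ 2 = ∑ e ∈ B, 2 * v' e z ^ 2 :=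
            Finset.sum_congr rfl fun e he => by
              have h := (Finset.mem_filter.1 (hBA he)).2
              obtain ⟨u, hu⟩ : ∃ u, t = u + 1 := ⟨t - 1, by omega⟩
              rw [hv'2, wgt, min_eq_left (by omega), hc, hu, Nat.add_sub_cancel, pow_succ]
              ring
          rw [e1, e2, e3]
          ring
        have hA0 : (0 : ℝ) ≤ ∑ e ∈ A, v' e z ^ 2 := Finset.sum_nonneg fun _ _ => sq_nonneg _
        have hAM : ∑ e ∈ A, v' e z ^ 2 ≤ Sq S (wgt τ t) v z := by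
          rw [Sq, ← Finset.sum_sdiff (Finset.filter_subset (fun e => t ≤ τ e) S), ← hA]
          refine le_add_of_nonneg_of_le (Finset.sum_nonneg fun e _ =>
            mul_nonneg (by unfold wgt; positivity) (sq_nonneg _)) (Finset.sum_le_sum fun e he => ?_)
          rw [hA, Finset.mem_filter] at he
          rw [hv'2, wgt, min_eq_left he.2]
        have hstep := step_arith hε0.le hε6 hM' hA0 hAM (Reg_nonneg g z)
          (by rw [add_comm]; exact Finset.sum_sdiff hBA)
          (hsqrt ▸ (hB z).1) (hsqrt ▸ (hB z).2)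
        have hprev := hS z
        set C := 10 * ∑ u ∈ Finset.Ioc t T, eps u with hC
        have hsum : ∑ u ∈ Finset.Ioc (T - (j + 1)) T, eps u =
            eps t + ∑ u ∈ Finset.Ioc t T, eps u := by
          rw [htj, ← Finset.sum_insert (a := t) (s := Finset.Ioc t T) (by simp)]
          refine Finset.sum_congr ?_ fun _ _ => rfl
          ext u
          simp only [Finset.mem_Ioc, Finset.mem_insert]
          omega
        have hC1 : C ≤ 1 := by
          rw [hC, heps, ← Finset.mul_sum]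
          have hg : ∑ u ∈ Finset.Ioc t T, rr ^ u ≤ 1 / (1 - rr) := by
            calc ∑ u ∈ Finset.Ioc t T, rr ^ u ≤ ∑ u ∈ Finset.range (T + 1), rr ^ u :=
                  Finset.sum_le_sum_of_subset_of_nonneg (fun u hu => by
                    simp only [Finset.mem_Ioc] at hu; simp; omega)
                    fun _ _ _ => by unfold rr; positivity
              _ ≤ 1 / (1 - rr) := by
                rw [one_div, Finset.range_eq_Ico]
                refine (geom_sum_Ico_le_of_lt_one (by norm_num [rr]) (by norm_num [rr])).trans ?_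
                norm_num [rr]
          rw [show σ0 = 1 / 4000 from rfl]; norm_num [rr] at hg ⊢; linarith
        have hM00 : 0 ≤ M0 z := Sq_nonneg _ (fun e => by positivity) _ _
        have hB0 := Reg_nonneg g z
        rw [hsum, ← hε, show 10 * (ε + ∑ u ∈ Finset.Ioc t T, eps u) * (M0 z + Reg g z) =
          10 * ε * (M0 z + Reg g z) + C * (M0 z + Reg g z) by rw [hC]; ring]
        have habs : |Sq ((S \ A) ∪ B) (wgt τ (T - (j + 1))) v z - M0 z| ≤
            |Sq ((S \ A) ∪ B) (wgt τ (T - (j + 1))) v z - Sq S (wgt τ t) v z| +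
              |Sq S (wgt τ t) v z - M0 z| := abs_sub_le _ _ _
        have hMb : Sq S (wgt τ t) v z + Reg g z ≤ 2 * (M0 z + Reg g z) := by
          have h2 : C * (M0 z + Reg g z) ≤ 1 * (M0 z + Reg g z) :=
            mul_le_mul_of_nonneg_right hC1 (by linarith)
          linarith [(abs_le.1 hprev).2]
        have h5 : 5 * ε * (Sq S (wgt τ t) v z + Reg g z) ≤ 5 * ε * (2 * (M0 z + Reg g z)) :=
          mul_le_mul_of_nonneg_left hMb (by positivity)
        linarith
  obtain ⟨S, hSE, -, hS⟩ := main T le_rfl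
  refine ⟨S, hSE, fun z => ?_⟩
  have h := hS z
  rw [Nat.sub_self] at h
  have he : Sq S (wgt τ 0) v z = ∑ e ∈ S, v e z ^ 2 := by simp [Sq, wgt]
  rw [he] at h
  refine h.trans (mul_le_mul_of_nonneg_right ?_
    (add_nonneg (Sq_nonneg _ (fun e => by positivity) _ _) (Reg_nonneg g z)))
  rw [heps, ← Finset.mul_sum]
  have hg : ∑ u ∈ Finset.Ioc 0 T, rr ^ u ≤ 1 / (1 - rr) := by
    calc ∑ u ∈ Finset.Ioc 0 T, rr ^ u ≤ ∑ u ∈ Finset.range (T + 1), rr ^ u :=
          Finset.sum_le_sum_of_subset_of_nonneg (fun u hu => by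
            simp only [Finset.mem_Ioc] at hu; simp; omega)
            fun _ _ _ => by unfold rr; positivity
      _ ≤ 1 / (1 - rr) := by
        rw [one_div, Finset.range_eq_Ico]
        refine (geom_sum_Ico_le_of_lt_one (by norm_num [rr]) (by norm_num [rr])).trans ?_
        norm_num [rr]
  rw [show σ0 = 1 / 4000 from rfl]; norm_num [rr] at hg ⊢; linarith

end Vale.P061.Transitive
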