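import Mathlib

/-!
P061, vertex-transitive graphs: cheap connecting sets inside pieces without small cuts.
-/

noncomputable section

namespace Vale.P061.Transitive

open Finset
open scoped Classical

variable {ι V : Type} [Fintype ι] [Fintype V]

/-- The edges between different classes of `f`. -/
def crossing (a b : ι → V) (f : V → V) : Finset ι := {e | f (a e) ≠ f (b e)}

lemma image_card_le (P f : V → V) (hfP : ∀ u v, f u = f v → P u = P v) :
    (univ.image f).card ≤ (univ.image P).card +
      ((univ.image f).filter fun x => ∃ u v, f u = x ∧ f v ≠ x ∧ P u = P v).card := by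
  rw [← Finset.card_filter_add_card_filter_not
    (fun x => ∃ u v, f u = x ∧ f v ≠ x ∧ P u = P v) (s := univ.image f), add_comm]
  refine Nat.add_le_add_right ?_ _
  refine Finset.card_le_card_of_forall_subsingleton (fun x y => ∃ u, f u = x ∧ P u = y) ?_ ?_
  · intro x hx
    obtain ⟨u, -, rfl⟩ := Finset.mem_image.1 (Finset.mem_filter.1 hx).1
    exact ⟨P u, Finset.mem_image_of_mem _ (Finset.mem_univ u), u, rfl, rfl⟩
  · rintro y - x ⟨hx, u, hu, hy⟩ x' ⟨-, u', hu', hy'⟩
    have h := (Finset.mem_filter.1 hx).2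
    push Not at h
    have := h u u' hu
    by_contra hne
    exact this (by rw [hu']; exact Ne.symm hne) (hy.trans hy'.symm)

lemma crossing_lower (a b : ι → V) (P f₀ f : V → V) {lam : ℝ}
    (hfP : ∀ u v, f u = f v → P u = P v) (hf : ∀ u v, f₀ u = f₀ v → f u = f v)
    (hcut : ∀ Z : Finset V, (∀ u v, f₀ u = f₀ v → (u ∈ Z ↔ v ∈ Z)) → ∀ u v, u ∈ Z → v ∉ Z →
      P u = P v → (∀ x ∈ Z, P x = P u) → lam ≤ (#{e : ι | a e ∈ Z ∧ b e ∉ Z} : ℕ)) :
    lam * ((univ.image f).filter fun x => ∃ u v, f u = x ∧ f v ≠ x ∧ P u = P v).card ≤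
      ((crossing a b f).card : ℕ) := by
  set N := (univ.image f).filter fun x => ∃ u v, f u = x ∧ f v ≠ x ∧ P u = P v with hN
  have h1 : ∀ x ∈ N, lam ≤ (((crossing a b f).filter fun e => f (a e) = x).card : ℕ) := by
    intro x hx
    obtain ⟨-, u, v, hu, hv, hP⟩ := Finset.mem_filter.1 hx
    refine (hcut ({w | f w = x} : Finset V) (fun p q h => by simp [hf p q h]) u v (by simp [hu])
      (by simp [hv]) hP fun w hw => hfP w u ?_).trans (le_of_eq ?_)
    · simp only [Finset.mem_filter, Finset.mem_univ, true_and] at hw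
      rw [hw, hu]
    · congr 2
      ext e
      simp only [crossing, Finset.mem_filter, Finset.mem_univ, true_and]
      exact ⟨fun h => ⟨fun h' => h.2 (h' ▸ h.1), h.1⟩, fun h => ⟨h.2, fun h' => h.1 (h.2.trans h'.symm)⟩⟩
  calc lam * (N.card : ℕ) = ∑ x ∈ N, lam := by simp [mul_comm]
    _ ≤ ∑ x ∈ N, ((((crossing a b f).filter fun e => f (a e) = x).card : ℕ) : ℝ) :=
        Finset.sum_le_sum h1
    _ ≤ ((crossing a b f).card : ℕ) := by
        rw [← Nat.cast_sum, Nat.cast_le,
          ← Finset.card_biUnion fun x _ y _ hxy => Finset.disjoint_filter.2 fun e _ h1 h2 =>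
            hxy (h1.symm.trans h2)]
        exact Finset.card_le_card fun e he => by
          obtain ⟨x, -, hx⟩ := Finset.mem_biUnion.1 he
          exact Finset.mem_of_mem_filter e hx

lemma exists_connecting (a b : ι → V) (P f₀ : V → V) {lam : ℝ} (hlam : 0 < lam)
    (hab : ∀ e, P (a e) = P (b e))
    (hcut : ∀ Z : Finset V, (∀ u v, f₀ u = f₀ v → (u ∈ Z ↔ v ∈ Z)) → ∀ u v, u ∈ Z → v ∉ Z →
      P u = P v → (∀ x ∈ Z, P x = P u) → lam ≤ (#{e : ι | a e ∈ Z ∧ b e ∉ Z} : ℕ)) :
    ∀ (c : ℕ) (f : V → V) (y : ι → ℝ), (univ.image f).card = c →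
      (∀ u v, f u = f v → P u = P v) → (∀ u v, f₀ u = f₀ v → f u = f v) →
      (∀ e ∈ crossing a b f, 0 ≤ y e) →
      ∃ T ⊆ crossing a b f, T.card + (univ.image P).card ≤ c ∧
        lam * ∑ e ∈ T, y e ≤ ∑ e ∈ crossing a b f, y e ∧
        ∀ h : V → ℝ, (∀ u v, f u = f v → h u = h v) → (∀ e ∈ T, h (a e) = h (b e)) →
          ∀ u v, P u = P v → h u = h v := by
  intro c
  induction c using Nat.strong_induction_on with
  | _ c ih =>
    intro f y hc hfP hf hy
    by_cases hdone : ∀ u v, P u = P v → f u = f v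
    · refine ⟨∅, Finset.empty_subset _, ?_, by simpa using Finset.sum_nonneg hy,
        fun h hh _ u v huv => hh u v (hdone u v huv)⟩
      rw [Finset.card_empty, zero_add, ← hc]
      exact Finset.card_le_card_of_forall_subsingleton (fun x z => ∃ u, P u = x ∧ f u = z)
        (fun x hx => by
          obtain ⟨u, -, rfl⟩ := Finset.mem_image.1 hx
          exact ⟨f u, Finset.mem_image_of_mem _ (Finset.mem_univ u), u, rfl, rfl⟩)
        (by
          rintro z - x ⟨-, u, hu, hz⟩ x' ⟨-, u', hu', hz'⟩
          rw [← hu, ← hu']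
          exact hfP u u' (hz.trans hz'.symm))
    · push Not at hdone
      obtain ⟨u₀, v₀, hP₀, hne₀⟩ := hdone
      have hlow := crossing_lower a b P f₀ f hfP hf hcut
      have hNpos : 1 ≤ ((univ.image f).filter fun x => ∃ u v, f u = x ∧ f v ≠ x ∧ P u = P v).card :=
        Finset.card_pos.2 ⟨f u₀, Finset.mem_filter.2
          ⟨Finset.mem_image_of_mem _ (Finset.mem_univ _), u₀, v₀, rfl, Ne.symm hne₀, hP₀⟩⟩
      have hne : (crossing a b f).Nonempty := by
        refine Finset.card_pos.1 (Nat.pos_of_ne_zero fun h => ?_)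
        rw [h, Nat.cast_zero] at hlow
        have := (Nat.one_le_cast (α := ℝ)).2 hNpos
        nlinarith
      obtain ⟨e₀, he₀, hmin⟩ := Finset.exists_min_image (crossing a b f) y hne
      have hne₁ : f (a e₀) ≠ f (b e₀) := (Finset.mem_filter.1 he₀).2
      set f' : V → V := fun v => if f v = f (b e₀) then f (a e₀) else f v with hf'
      have himg : univ.image f' = (univ.image f).erase (f (b e₀)) := by
        ext x
        simp only [Finset.mem_image, Finset.mem_univ, true_and, Finset.mem_erase, hf']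
        constructor
        · rintro ⟨v, rfl⟩
          split_ifs with hv
          · exact ⟨hne₁, a e₀, rfl⟩
          · exact ⟨hv, v, rfl⟩
        · rintro ⟨hx, v, rfl⟩
          exact ⟨v, by rw [if_neg hx]⟩
      have hc' : (univ.image f').card + 1 = c := by
        rw [himg, Finset.card_erase_add_one (Finset.mem_image_of_mem _ (Finset.mem_univ _)), hc]
      have hsub : crossing a b f' ⊆ crossing a b f := fun e he => by
        simp only [crossing, Finset.mem_filter, Finset.mem_univ, true_and, hf'] at he ⊢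
        exact fun h => he (by rw [h])
      obtain ⟨T, hTs, hTc, hTy, hTh⟩ := ih (c - 1) (by omega) f' (fun e => y e - y e₀) (by omega)
        (fun u v h => by
          have key : ∀ w, ∃ w', f w' = f' w ∧ P w' = P w := fun w => by
            by_cases hw : f w = f (b e₀)
            · exact ⟨a e₀, by simp [hf', hw], (hab e₀).trans (hfP w _ hw).symm⟩
            · exact ⟨w, by simp [hf', hw], rfl⟩
          obtain ⟨u', hu1, hu2⟩ := key u
          obtain ⟨v', hv1, hv2⟩ := key v
          rw [← hu2, ← hv2]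
          exact hfP _ _ (hu1.trans (h.trans hv1.symm)))
        (fun u v h => by simp [hf', hf u v h])
        (fun e he => sub_nonneg.2 (hmin e (hsub he)))
      have he₀T : e₀ ∉ T := fun h => by
        have := (Finset.mem_filter.1 (hTs h)).2
        simp [hf', hne₁] at this
      refine ⟨insert e₀ T, ?_, ?_, ?_, fun h hh hT => ?_⟩
      · exact Finset.insert_subset he₀ (hTs.trans hsub)
      · rw [Finset.card_insert_of_notMem he₀T]; omega
      · have h1 : ∑ e ∈ crossing a b f', (y e - y e₀) ≤ ∑ e ∈ crossing a b f, (y e - y e₀) :=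
          Finset.sum_le_sum_of_subset_of_nonneg hsub fun e he _ => sub_nonneg.2 (hmin e he)
        rw [Finset.sum_sub_distrib, Finset.sum_sub_distrib, Finset.sum_const, Finset.sum_const,
          nsmul_eq_mul, nsmul_eq_mul] at h1
        rw [Finset.sum_sub_distrib, Finset.sum_sub_distrib, Finset.sum_const, Finset.sum_const,
          nsmul_eq_mul, nsmul_eq_mul] at hTy
        rw [Finset.sum_insert he₀T, mul_add]
        have hN : ((T.card : ℝ) + 1) ≤
            ((univ.image f).filter fun x => ∃ u v, f u = x ∧ f v ≠ x ∧ P u = P v).card := by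
          have := image_card_le P f hfP
          have h' : T.card + 1 ≤
              ((univ.image f).filter fun x => ∃ u v, f u = x ∧ f v ≠ x ∧ P u = P v).card := by
            omega
          exact_mod_cast h'
        have h2 := mul_le_mul_of_nonneg_left hN hlam.le
        have h3 : lam * ((T.card : ℝ) + 1) * y e₀ ≤ ((crossing a b f).card : ℝ) * y e₀ :=
          mul_le_mul_of_nonneg_right (h2.trans hlow) (hy e₀ he₀)
        nlinarith
      · refine hTh h (fun u v huv => ?_) fun e he => hT e (Finset.mem_insert_of_mem he)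
        have key : ∀ w, h w = h (if f w = f (b e₀) then a e₀ else w) := fun w => by
          split_ifs with hw
          · rw [hh w _ hw, hT e₀ (Finset.mem_insert_self _ _)]
          · rfl
        rw [key u, key v]
        refine hh _ _ ?_
        simp only [hf'] at huv
        split_ifs at huv ⊢ <;> exact huv

/-- The difference of the values at two points. -/
def diffAt (u v : V) : (V → ℝ) →ₗ[ℝ] ℝ :=
  (LinearMap.proj u : (V → ℝ) →ₗ[ℝ] ℝ) - (LinearMap.proj v : (V → ℝ) →ₗ[ℝ] ℝ)

omit [Fintype V] in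
@[simp] lemma diffAt_apply (u v : V) (h : V → ℝ) : diffAt u v h = h u - h v := rfl

/-- Some set of edges of cost at most `1 / lam` times the total spans all the differences. -/
theorem exists_spanning (a b : ι → V) (P f₀ : V → V) {lam : ℝ} (hlam : 0 < lam)
    (hab : ∀ e, P (a e) = P (b e)) (hfP : ∀ u v, f₀ u = f₀ v → P u = P v)
    (hcut : ∀ Z : Finset V, (∀ u v, f₀ u = f₀ v → (u ∈ Z ↔ v ∈ Z)) → ∀ u v, u ∈ Z → v ∉ Z →
      P u = P v → (∀ x ∈ Z, P x = P u) → lam ≤ (#{e : ι | a e ∈ Z ∧ b e ∉ Z} : ℕ))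
    (y : ι → ℝ) (hy : ∀ e, 0 ≤ y e) :
    ∃ T : Finset ι, ∑ e ∈ T, y e ≤ 1 / lam * ∑ e, y e ∧ ∀ e,
      diffAt (f₀ (a e)) (f₀ (b e)) ∈
        Submodule.span ℝ ((fun i => diffAt (f₀ (a i)) (f₀ (b i))) '' T) := by
  obtain ⟨T, -, -, hTy, hTh⟩ := exists_connecting a b P f₀ hlam hab hcut _ f₀ y rfl hfP
    (fun _ _ => id) fun e _ => hy e
  refine ⟨T, ?_, fun e => ?_⟩
  · rw [div_mul_eq_mul_div, one_mul, le_div_iff₀ hlam, mul_comm]
    exact hTy.trans (Finset.sum_le_univ_sum_of_nonneg hy)
  · rw [Set.image_eq_range]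
    refine mem_span_of_iInf_ker_le_ker fun h hh => ?_
    simp only [Submodule.mem_iInf, LinearMap.mem_ker] at hh
    rw [LinearMap.mem_ker]
    have := hTh (fun v => h (f₀ v)) (fun u v huv => by rw [huv])
      (fun i hi => sub_eq_zero.1 (by simpa using hh ⟨i, hi⟩)) (a e) (b e) (hab e)
    simpa [sub_eq_zero] using this

end Vale.P061.Transitive
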