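import Mathlib

/-!
P061, vertex-transitive graphs: weights making all leverages small, by minimising
`log det - ε ∑ log w`, when spanning sets with small total cost exist for every cost.
-/

noncomputable section

namespace Vale.P061.Transitive

open Finset
open scoped Matrix Classical

variable {ι : Type} [Fintype ι] {n : ℕ}

/-- The weighted Gram matrix. -/
def gram (c : ι → Fin n → ℝ) (w : ι → ℝ) : Matrix (Fin n) (Fin n) ℝ :=
  ∑ e, w e • Matrix.vecMulVec (c e) (c e)

lemma det_rank_one {A : Matrix (Fin n) (Fin n) ℝ} (hA : A.PosDef) (t : ℝ) (c : Fin n → ℝ) :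
    (A + t • Matrix.vecMulVec c c).det = A.det * (1 + t * (c ⬝ᵥ A⁻¹ *ᵥ c)) := by
  have hu : IsUnit A.det := hA.det_pos.ne'.isUnit
  have h : t • Matrix.vecMulVec c c =
      Matrix.replicateCol Unit (t • c) * Matrix.replicateRow Unit c := by
    ext i j
    simp [Matrix.vecMulVec, Matrix.mul_apply]
    ring
  rw [h, Matrix.det_add_replicateCol_mul_replicateRow hu, Matrix.det_unique (n := Unit)]
  congr 1
  rw [Matrix.add_apply, Matrix.one_apply_eq, Matrix.mul_assoc, ← Matrix.replicateCol_mulVec,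
    Matrix.replicateRow_mul_replicateCol_apply, Matrix.mulVec_smul, dotProduct_smul, smul_eq_mul]

lemma posDef_add_rank_one {A : Matrix (Fin n) (Fin n) ℝ} (hA : A.PosDef) {t : ℝ} (ht : 0 ≤ t)
    (c : Fin n → ℝ) :
    (A + t • Matrix.vecMulVec c c).PosDef ∧ A.det ≤ (A + t • Matrix.vecMulVec c c).det := by
  refine ⟨hA.add_posSemidef ((?_ : (Matrix.vecMulVec c c).PosSemidef).smul ht), ?_⟩
  · simpa using Matrix.posSemidef_vecMulVec_self_star c
  · rw [det_rank_one hA]
    have h := hA.inv.posSemidef.dotProduct_mulVec_nonneg c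
    simp only [star_trivial] at h
    nlinarith [mul_nonneg hA.det_pos.le (mul_nonneg ht h)]

lemma posDef_add_sum {A : Matrix (Fin n) (Fin n) ℝ} (hA : A.PosDef) (c : ι → Fin n → ℝ)
    {w : ι → ℝ} (hw : ∀ e, 0 ≤ w e) (s : Finset ι) :
    (A + ∑ e ∈ s, w e • Matrix.vecMulVec (c e) (c e)).PosDef ∧
      A.det ≤ (A + ∑ e ∈ s, w e • Matrix.vecMulVec (c e) (c e)).det := by
  induction s using Finset.induction_on with
  | empty => simp [hA]
  | insert a s ha ih =>
    rw [Finset.sum_insert ha, add_comm (w a • _), ← add_assoc]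
    exact ⟨(posDef_add_rank_one ih.1 (hw a) _).1,
      ih.2.trans (posDef_add_rank_one ih.1 (hw a) _).2⟩

/-- The coordinates of a basis among the vectors. -/
def sub (c : ι → Fin n → ℝ) (a : Fin n → ι) : Matrix (Fin n) (Fin n) ℝ :=
  Matrix.of fun i j => c (a i) j

lemma gram_basis {c : ι → Fin n → ℝ} {a : Fin n → ι} (ha : Function.Injective a)
    (hdet : (sub c a).det ≠ 0) {w : ι → ℝ} (hw : ∀ e, 0 < w e) :
    (gram c w).PosDef ∧ (sub c a).det ^ 2 * ∏ i, w (a i) ≤ (gram c w).det := by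
  set D : Matrix (Fin n) (Fin n) ℝ := Matrix.diagonal fun i => w (a i) with hD
  have hAT : ∑ e ∈ univ.image a, w e • Matrix.vecMulVec (c e) (c e) =
      (sub c a)ᵀ * D * sub c a := by
    rw [Finset.sum_image ha.injOn]
    ext i j
    simp only [Matrix.sum_apply, Matrix.smul_apply, Matrix.vecMulVec_apply, smul_eq_mul,
      Matrix.mul_apply (M := (sub c a)ᵀ * D), hD, Matrix.mul_diagonal, Matrix.transpose_apply]
    exact Finset.sum_congr rfl fun k _ => by simp [sub]; ring
  have hpd : ((sub c a)ᵀ * D * sub c a).PosDef := by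
    have h := (Matrix.posDef_diagonal_iff.2 fun i => hw (a i)).conjTranspose_mul_mul_same
      (B := sub c a) (Matrix.mulVec_injective_iff_isUnit.2
        ((Matrix.isUnit_iff_isUnit_det _).2 hdet.isUnit))
    rw [Matrix.conjTranspose_eq_transpose_of_trivial] at h
    exact h
  have h := posDef_add_sum hpd c (fun e => (hw e).le) (univ.image a)ᶜ
  rw [← hAT, Finset.sum_add_sum_compl] at h
  refine ⟨h.1, le_trans (le_of_eq ?_) h.2⟩
  rw [hAT, Matrix.det_mul, Matrix.det_mul, Matrix.det_transpose, hD, Matrix.det_diagonal]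
  ring

lemma gram_form (c : ι → Fin n → ℝ) (w : ι → ℝ) (z : Fin n → ℝ) :
    z ⬝ᵥ gram c w *ᵥ z = ∑ e, w e * (c e ⬝ᵥ z) ^ 2 := by
  rw [gram, Matrix.sum_mulVec, dotProduct_sum]
  refine Finset.sum_congr rfl fun e _ => ?_
  rw [Matrix.smul_mulVec, dotProduct_smul, Matrix.vecMulVec_mulVec]
  simp only [dotProduct_comm z (c e), MulOpposite.smul_eq_mul_unop, MulOpposite.unop_op,
    dotProduct_smul, smul_eq_mul]
  ring

lemma cauchy {A : Matrix (Fin n) (Fin n) ℝ} (hA : A.PosDef) (c z : Fin n → ℝ) :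
    (c ⬝ᵥ z) ^ 2 ≤ (c ⬝ᵥ A⁻¹ *ᵥ c) * (z ⬝ᵥ A *ᵥ z) := by
  set u := A⁻¹ *ᵥ c with hu
  have hAu : A *ᵥ u = c := by
    rw [hu, Matrix.mulVec_mulVec, Matrix.mul_nonsing_inv _ hA.det_pos.ne'.isUnit, Matrix.one_mulVec]
  have hsymm : ∀ x, u ⬝ᵥ A *ᵥ x = c ⬝ᵥ x := fun x => by
    rw [Matrix.dotProduct_mulVec, ← Matrix.mulVec_transpose]
    have : Aᵀ = A := by
      rw [← Matrix.conjTranspose_eq_transpose_of_trivial]; exact hA.isHermitian.eq
    rw [this, hAu]
  have hexp : ∀ l : ℝ, 0 ≤ z ⬝ᵥ A *ᵥ z - 2 * l * (c ⬝ᵥ z) + l ^ 2 * (c ⬝ᵥ u) := fun l => by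
    have h := hA.posSemidef.dotProduct_mulVec_nonneg (z - l • u)
    simp only [star_trivial, Matrix.mulVec_sub, Matrix.mulVec_smul, sub_dotProduct, dotProduct_sub,
      smul_dotProduct, dotProduct_smul, smul_eq_mul, hAu, hsymm, dotProduct_comm z c,
      dotProduct_comm u c] at h
    nlinarith
  by_cases hc : c = 0
  · simp [hc, hu]
  · have hq : 0 < c ⬝ᵥ u := by
      have h := hA.inv.dotProduct_mulVec_pos hc
      simpa [hu] using h
    have h := hexp ((c ⬝ᵥ z) / (c ⬝ᵥ u))
    have e : (z ⬝ᵥ A *ᵥ z - 2 * ((c ⬝ᵥ z) / (c ⬝ᵥ u)) * (c ⬝ᵥ z) +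
        ((c ⬝ᵥ z) / (c ⬝ᵥ u)) ^ 2 * (c ⬝ᵥ u)) * (c ⬝ᵥ u) =
        (c ⬝ᵥ u) * (z ⬝ᵥ A *ᵥ z) - (c ⬝ᵥ z) ^ 2 := by
      field_simp; ring
    nlinarith [mul_nonneg h hq.le]

lemma leverage_limit {ε lev : ℝ} (hε : 0 ≤ ε)
    (h : ∀ s, 0 < s → s < 1 → 0 < 1 - s * lev ∧
      ε * Real.log (1 - s) ≤ Real.log (1 - s * lev)) : lev ≤ ε := by
  by_contra hlt
  push Not at hlt
  have hlev : 0 < lev := hε.trans_lt hlt
  set s := (lev - ε) / (2 * lev) with hs
  have hs0 : 0 < s := div_pos (by linarith) (by linarith)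
  have hs1 : s < 1 := by rw [hs, div_lt_one (by linarith)]; linarith
  obtain ⟨hp, hlog⟩ := h s hs0 hs1
  have h1 := Real.log_le_sub_one_of_pos hp
  have h2 := Real.one_sub_inv_le_log_of_pos (show 0 < 1 - s by linarith)
  have h3 : s * lev ≤ ε * (s / (1 - s)) := by
    have : 1 - (1 - s)⁻¹ = -(s / (1 - s)) := by
      have hne : (1 : ℝ) - s ≠ 0 := by linarith
      field_simp; ring
    rw [this] at h2
    nlinarith [mul_le_mul_of_nonneg_left h2 hε]
  rw [mul_div_assoc', le_div_iff₀ (by linarith)] at h3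
  have h4 : lev * (1 - s) ≤ ε := by nlinarith
  have h5 : lev * s = (lev - ε) / 2 := by rw [hs]; field_simp
  nlinarith

/-- Weights with all leverages at most `ε`. -/
theorem exists_weights {Z : Type} [AddCommGroup Z] [Module ℝ Z] (b : ι → Z →ₗ[ℝ] ℝ) {ρ ε : ℝ}
    (hρ : 0 ≤ ρ) (hε : ρ < ε)
    (hspan : ∀ y : ι → ℝ, (∀ e, 0 ≤ y e) → ∃ T : Finset ι, ∑ e ∈ T, y e ≤ ρ * ∑ e, y e ∧
      ∀ e, b e ∈ Submodule.span ℝ (b '' T)) :
    ∃ w : ι → ℝ, (∀ e, 0 < w e) ∧
      ∀ e z, w e * (b e z) ^ 2 ≤ ε * ∑ f, w f * (b f z) ^ 2 := by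
  set W := Submodule.span ℝ (Set.range b) with hW
  obtain ⟨n, hn⟩ : ∃ n, Module.finrank ℝ W = n := ⟨_, rfl⟩
  have hbase : ∀ T : Finset ι, (∀ e, b e ∈ Submodule.span ℝ (b '' T)) →
      ∃ a : Fin n → ι, Function.Injective a ∧ (∀ i, a i ∈ T) ∧
        LinearIndependent ℝ (b ∘ a) ∧ Submodule.span ℝ (Set.range (b ∘ a)) = W := by
    intro T hT
    obtain ⟨κ, a, ha, hspan', hli⟩ := exists_linearIndependent' ℝ fun e : T => b e
    have : Fintype κ := Fintype.ofInjective a ha
    have hTW : Submodule.span ℝ (Set.range fun e : T => b e) = W := by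
      refine le_antisymm (Submodule.span_mono (by rintro _ ⟨e, rfl⟩; exact ⟨e, rfl⟩)) ?_
      rw [hW, Submodule.span_le]
      rintro _ ⟨e, rfl⟩
      rw [show Set.range (fun e : T => b e) = b '' T by ext; simp]
      exact hT e
    have hcard : Fintype.card κ = n := by
      rw [← hn, ← hTW, ← hspan', finrank_span_eq_card hli]
    set σ := Fintype.equivFinOfCardEq hcard
    refine ⟨fun i => (a (σ.symm i)).1, Subtype.val_injective.comp (ha.comp σ.symm.injective),
      fun i => (a _).2, hli.comp _ σ.symm.injective, ?_⟩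
    rw [← hTW, ← hspan']
    congr 1
    exact σ.symm.surjective.range_comp ((fun e : T => b e) ∘ a)
  obtain ⟨T₀, -, hT₀⟩ := hspan 0 fun _ => le_rfl
  obtain ⟨a₀, ha₀, -, hli₀, hsp₀⟩ := hbase T₀ hT₀
  have hcoord : ∀ e, ∃ c : Fin n → ℝ, ∑ j, c j • b (a₀ j) = b e := fun e =>
    Submodule.mem_span_range_iff_exists_fun ℝ |>.1
      ((hsp₀.symm ▸ Submodule.subset_span ⟨e, rfl⟩ : b e ∈ Submodule.span ℝ (Set.range (b ∘ a₀))))
  choose c hc using hcoord
  have hdet : ∀ a : Fin n → ι, Submodule.span ℝ (Set.range (b ∘ a)) = W → (sub c a).det ≠ 0 := by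
    intro a ha
    have hd : ∀ j, ∃ d : Fin n → ℝ, ∑ i, d i • b (a i) = b (a₀ j) := fun j =>
      Submodule.mem_span_range_iff_exists_fun ℝ |>.1
        ((ha.symm ▸ Submodule.subset_span ⟨a₀ j, rfl⟩ :
          b (a₀ j) ∈ Submodule.span ℝ (Set.range (b ∘ a))))
    choose d hd using hd
    refine Matrix.det_ne_zero_of_left_inverse (B := Matrix.of d) ?_
    ext j l
    have h : ∑ m, ((Matrix.of d * sub c a) j m - (1 : Matrix (Fin n) (Fin n) ℝ) j m) •
        b (a₀ m) = 0 := by
      simp only [Matrix.mul_apply, Matrix.of_apply, sub, Matrix.one_apply, sub_smul]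
      refine (Finset.sum_congr rfl fun m _ => (sub_smul _ _ (b (a₀ m)) :
        ((∑ i, d j i * c (a i) m) - if j = m then (1 : ℝ) else 0) • b (a₀ m) = _)).trans ?_
      rw [Finset.sum_sub_distrib, sub_eq_zero]
      calc _ = b (a₀ j) := by
            simp only [Finset.sum_smul, mul_smul]
            rw [Finset.sum_comm]
            simp only [← Finset.smul_sum, hc, hd]
        _ = _ := by simp
    exact sub_eq_zero.1 (Fintype.linearIndependent_iff.1 hli₀ _ h l)
  obtain ⟨amin, hmin, hle⟩ := Finset.exists_min_image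
    ({a : Fin n → ι | (sub c a).det ≠ 0} : Finset _) (fun a => (sub c a).det ^ 2)
    ⟨a₀, by simp [hdet a₀ hsp₀]⟩
  simp only [Finset.mem_filter, Finset.mem_univ, true_and] at hmin hle
  set c₀ := (sub c amin).det ^ 2 with hc₀
  have hc₀pos : 0 < c₀ := by positivity
  set Φ : (ι → ℝ) → ℝ := fun w => Real.log (gram c w).det - ε * ∑ e, Real.log (w e) with hΦ
  have hlow : ∀ w : ι → ℝ, (∀ e, 0 < w e) → (∀ e, w e ≤ 1) →
      Real.log c₀ + (ε - ρ) * ∑ e, -Real.log (w e) ≤ Φ w := by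
    intro w hw hw1
    obtain ⟨T, hTy, hT⟩ := hspan (fun e => -Real.log (w e)) fun e =>
      neg_nonneg.2 (Real.log_nonpos (hw e).le (hw1 e))
    obtain ⟨a, ha, haT, -, hsp⟩ := hbase T hT
    obtain ⟨-, hd⟩ := gram_basis ha (hdet a hsp) hw
    have hp : 0 < ∏ i, w (a i) := Finset.prod_pos fun i _ => hw _
    have h1 : Real.log c₀ + ∑ i, Real.log (w (a i)) ≤ Real.log (gram c w).det := by
      rw [← Real.log_prod fun i _ => (hw _).ne', ← Real.log_mul hc₀pos.ne' hp.ne']
      exact Real.log_le_log (mul_pos hc₀pos hp)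
        (le_trans (mul_le_mul_of_nonneg_right (hle a (hdet a hsp)) hp.le) hd)
    have h2 : ∑ i, -Real.log (w (a i)) ≤ ρ * ∑ e, -Real.log (w e) := by
      refine le_trans (le_trans (le_of_eq ?_) (Finset.sum_le_sum_of_subset_of_nonneg
        (s := univ.image a) (fun e he => ?_) fun e _ _ =>
          neg_nonneg.2 (Real.log_nonpos (hw e).le (hw1 e)))) hTy
      · rw [Finset.sum_image ha.injOn]
      · obtain ⟨i, -, rfl⟩ := Finset.mem_image.1 he
        exact haT i
    rw [Finset.sum_neg_distrib] at h2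
    simp only [hΦ, Finset.sum_neg_distrib] at h2 ⊢
    linarith
  have hgpos : ∀ w : ι → ℝ, (∀ e, 0 < w e) → (gram c w).PosDef := fun w hw =>
    (gram_basis ha₀ (hdet a₀ hsp₀) hw).1
  set M := max 0 ((Φ 1 - Real.log c₀) / (ε - ρ)) + 1 with hM
  set δ := Real.exp (-M) with hδ
  have hM0 : 0 < M := by rw [hM]; have := le_max_left (0 : ℝ) ((Φ 1 - Real.log c₀) / (ε - ρ)); linarith
  have hδ1 : δ ≤ 1 := Real.exp_le_one_iff.2 (by linarith)
  set box : Set (ι → ℝ) := Set.pi Set.univ fun _ => Set.Icc δ 1 with hbox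
  have hcont : ContinuousOn Φ box := by
    refine ContinuousOn.sub (ContinuousOn.log ?_ fun w hw => ?_)
      (continuousOn_const.mul (continuousOn_finsetSum _ fun e _ => ContinuousOn.log
        (continuous_apply e).continuousOn fun w hw => ?_))
    · refine Continuous.continuousOn ?_
      unfold gram
      exact (continuous_finsetSum _ fun e _ =>
        (continuous_apply e).smul continuous_const).matrix_det
    · exact ((hgpos w fun e =>
        lt_of_lt_of_le (Real.exp_pos _) (hw e (Set.mem_univ e)).1).det_pos).ne'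
    · exact (lt_of_lt_of_le (Real.exp_pos _) (hw e (Set.mem_univ e)).1).ne'
  obtain ⟨w, hw, hwmin⟩ := (isCompact_univ_pi fun _ => isCompact_Icc).exists_isMinOn
    (s := box) ⟨1, fun e _ => ⟨hδ1, le_rfl⟩⟩ hcont
  have hglob : ∀ u : ι → ℝ, (∀ e, 0 < u e) → (∀ e, u e ≤ 1) → Φ w ≤ Φ u := by
    intro u hu hu1
    by_cases hin : u ∈ box
    · exact hwmin hin
    · refine (hwmin (fun e _ => ⟨hδ1, le_rfl⟩ : (1 : ι → ℝ) ∈ box)).trans ?_
      simp only [hbox, Set.mem_pi, Set.mem_univ, true_implies, not_forall] at hin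
      obtain ⟨e, he⟩ := hin
      have hlt : u e < δ := by
        by_contra h
        exact he ⟨not_lt.1 h, hu1 e⟩
      have h1 : M ≤ ∑ f, -Real.log (u f) := by
        refine le_trans ?_ (Finset.single_le_sum (fun f _ => neg_nonneg.2
          (Real.log_nonpos (hu f).le (hu1 f))) (Finset.mem_univ e))
        have := Real.log_le_log (hu e) hlt.le
        rw [hδ, Real.log_exp] at this
        linarith
      have h2 := hlow u hu hu1
      have h3 : Φ 1 - Real.log c₀ ≤ (ε - ρ) * M := by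
        have h4 : (Φ 1 - Real.log c₀) / (ε - ρ) ≤ M := by
          rw [hM]; linarith [le_max_right (0 : ℝ) ((Φ 1 - Real.log c₀) / (ε - ρ))]
        rw [div_le_iff₀ (by linarith)] at h4
        linarith
      nlinarith [mul_le_mul_of_nonneg_left h1 (by linarith : 0 ≤ ε - ρ)]
  have hwpos : ∀ e, 0 < w e := fun e => lt_of_lt_of_le (Real.exp_pos _) (hw e (Set.mem_univ e)).1
  refine ⟨w, hwpos, fun e z => ?_⟩
  have hA := hgpos w hwpos
  set q := c e ⬝ᵥ (gram c w)⁻¹ *ᵥ c e with hq
  have hlev : w e * q ≤ ε := by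
    refine leverage_limit (hρ.trans hε.le) fun s hs0 hs1 => ?_
    set u := Function.update w e ((1 - s) * w e) with hu
    have hupos : ∀ f, 0 < u f := fun f => by
      rcases eq_or_ne f e with rfl | h
      · simp [hu]; exact mul_pos (by linarith) (hwpos f)
      · simp [hu, h, hwpos f]
    have hu1 : ∀ f, u f ≤ 1 := fun f => by
      rcases eq_or_ne f e with rfl | h
      · simp [hu]; nlinarith [(hw f (Set.mem_univ f)).2, hwpos f]
      · simp [hu, h, (hw f (Set.mem_univ f)).2]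
    have hgu : gram c u = gram c w + (-(s * w e)) • Matrix.vecMulVec (c e) (c e) := by
      simp only [gram]
      rw [← Finset.add_sum_erase _ _ (Finset.mem_univ e),
        ← Finset.add_sum_erase _ _ (Finset.mem_univ e), hu, Function.update_self,
        Finset.sum_congr rfl fun f hf => by rw [Function.update_of_ne (Finset.ne_of_mem_erase hf)]]
      module
    have hd := det_rank_one hA (-(s * w e)) (c e)
    rw [← hgu, ← hq] at hd
    have hdpos := (hgpos u hupos).det_pos
    rw [hd] at hdpos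
    have hone : 0 < 1 - s * (w e * q) := by
      have := pos_of_mul_pos_right hdpos hA.det_pos.le
      linarith
    refine ⟨hone, ?_⟩
    have hcmp := hglob u hupos hu1
    simp only [hΦ] at hcmp
    rw [hd, Real.log_mul hA.det_pos.ne' (by linarith), ← Finset.add_sum_erase _ _
      (Finset.mem_univ e), ← Finset.add_sum_erase _ (fun f => Real.log (u f)) (Finset.mem_univ e),
      Finset.sum_congr (s₁ := univ.erase e) (f := fun f => Real.log (u f))
        (g := fun f => Real.log (w f)) rfl fun f hf => by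
          rw [hu, Function.update_of_ne (Finset.ne_of_mem_erase hf)],
      hu, Function.update_self, Real.log_mul (by linarith) (hwpos e).ne'] at hcmp
    rw [show -(s * w e) * q = -(s * (w e * q)) by ring, ← sub_eq_add_neg] at hcmp
    linarith
  set x : Fin n → ℝ := fun j => b (a₀ j) z with hx
  have hbz : ∀ f, b f z = c f ⬝ᵥ x := fun f => by
    rw [← hc f]
    simp [hx, dotProduct]
  have hcs := cauchy hA (c e) x
  rw [gram_form, ← hq] at hcs
  simp only [hbz]
  calc w e * (c e ⬝ᵥ x) ^ 2 ≤ w e * (q * ∑ f, w f * (c f ⬝ᵥ x) ^ 2) :=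
        mul_le_mul_of_nonneg_left hcs (hwpos e).le
    _ ≤ ε * ∑ f, w f * (c f ⬝ᵥ x) ^ 2 := by
      rw [← mul_assoc]
      exact mul_le_mul_of_nonneg_right hlev
        (Finset.sum_nonneg fun f _ => mul_nonneg (hwpos f).le (sq_nonneg _))

end Vale.P061.Transitive
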