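import Vale.Agent.P061.Transitive.Hier
import Vale.Agent.P061.Transitive.Sample
import Vale.Agent.P061.Transitive.Weights
import Vale.Agent.P061.Transitive.Span

/-!
P061, vertex-transitive graphs: the joint coordinates and their leverages.
-/

noncomputable section

namespace Vale.P061.Transitive

open Finset
open scoped Classical

variable {V : Type} [Fintype V] [Nonempty V] {G : SimpleGraph V}

/-- The sampling scale. -/
def Lam : ℕ := 360 * 4000 ^ 4

lemma Lam_pos : (0 : ℝ) < Lam := by unfold Lam; positivity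

/-- The growth of the allowed load. -/
def qq : ℝ := 21 / 20

/-- The number of halvings at a level. -/
def rounds (ht : IsTrans G) (l : ℕ) : ℕ :=
  Nat.log 2 ((lev ht l).size * (lev ht l).ext / Lam)

/-- The sampling rate at a level. -/
def rate (ht : IsTrans G) (l : ℕ) : ℝ := (1 / 2) ^ rounds ht l

lemma rate_pos (ht : IsTrans G) (l : ℕ) : 0 < rate ht l := by unfold rate; positivity

/-- The load `size * ext` of a level, as a real number. -/
def load (ht : IsTrans G) (l : ℕ) : ℝ := (lev ht l).size * (lev ht l).ext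

lemma load_pos (ht : IsTrans G) {l : ℕ} (hl : l < height ht) : 0 < load ht l := by
  have h1 := (lev ht l).size_pos
  have h2 := ext_pos ht hl
  unfold load
  positivity

lemma rate_le (ht : IsTrans G) (l : ℕ) : rate ht l * load ht l ≤ 2 * Lam := by
  set N := (lev ht l).size * (lev ht l).ext
  have h : N < Lam * 2 ^ (rounds ht l + 1) := by
    have h1 : N / Lam < 2 ^ (rounds ht l + 1) := Nat.lt_pow_succ_log_self one_lt_two _
    have hpos : 0 < Lam := by unfold Lam; positivity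
    calc N < Lam * (N / Lam + 1) := Nat.lt_mul_div_succ N hpos
      _ ≤ _ := Nat.mul_le_mul_left _ h1
  have h' : load ht l ≤ Lam * 2 ^ (rounds ht l + 1) := by
    unfold load; exact_mod_cast h.le
  calc rate ht l * load ht l ≤ rate ht l * (Lam * 2 ^ (rounds ht l + 1)) :=
        mul_le_mul_of_nonneg_left h' (rate_pos ht l).le
    _ = 2 * Lam * ((1 / 2 : ℝ) ^ rounds ht l * 2 ^ rounds ht l) := by rw [rate, pow_succ]; ring
    _ = 2 * Lam := by rw [← mul_pow]; norm_num

lemma le_rate (ht : IsTrans G) {l : ℕ} (h : 1 ≤ rounds ht l) :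
    (Lam : ℝ) ≤ rate ht l * load ht l := by
  set N := (lev ht l).size * (lev ht l).ext
  have hne : N / Lam ≠ 0 := fun h0 => by
    rw [rounds, show (lev ht l).size * (lev ht l).ext / Lam = 0 from h0, Nat.log_zero_right] at h
    omega
  have h1 : Lam * 2 ^ rounds ht l ≤ N :=
    (Nat.mul_le_mul_left _ (Nat.pow_log_le_self 2 hne)).trans (Nat.mul_div_le N Lam)
  have h' : (Lam : ℝ) * 2 ^ rounds ht l ≤ load ht l := by unfold load; exact_mod_cast h1
  calc (Lam : ℝ) = rate ht l * (Lam * 2 ^ rounds ht l) := by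
        rw [rate, mul_left_comm, ← mul_pow]; norm_num
    _ ≤ _ := mul_le_mul_of_nonneg_left h' (rate_pos ht l).le

/-- The edges kept at a level. -/
def lvlSet (ht : IsTrans G) (l : ℕ) : Finset (V × V) :=
  {e | kept (lev ht l) (lev ht (l + 1)) e.1 e.2}

lemma mem_lvlSet {ht : IsTrans G} {l : ℕ} {e : V × V} :
    e ∈ lvlSet ht l ↔ kept (lev ht l) (lev ht (l + 1)) e.1 e.2 := by simp [lvlSet]

lemma lvl_unique (ht : IsTrans G) {i j : ℕ} {e : V × V} (hi : e ∈ lvlSet ht i)
    (hj : e ∈ lvlSet ht j) : i = j := by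
  rw [mem_lvlSet] at hi hj
  by_contra hne
  rcases Nat.lt_or_gt_of_ne hne with h | h
  · exact hj.1.1.2 (lev_mono ht h hi.2)
  · exact hi.1.1.2 (lev_mono ht h hj.2)

/-- All kept edges. -/
def allEdges (ht : IsTrans G) : Finset (V × V) := (range (height ht)).biUnion (lvlSet ht)

/-- The level of an edge. -/
def lvlOf (ht : IsTrans G) (e : V × V) : ℕ :=
  if h : ∃ l, l < height ht ∧ e ∈ lvlSet ht l then h.choose else 0

lemma lvlOf_eq (ht : IsTrans G) {l : ℕ} {e : V × V} (hl : l < height ht) (he : e ∈ lvlSet ht l) :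
    lvlOf ht e = l := by
  have h : ∃ l, l < height ht ∧ e ∈ lvlSet ht l := ⟨l, hl, he⟩
  rw [lvlOf, dif_pos h]
  exact lvl_unique ht h.choose_spec.2 he

/-- The difference at the representatives of a level. -/
def dif (ht : IsTrans G) (l : ℕ) (e : V × V) : (V → ℝ) →ₗ[ℝ] ℝ :=
  diffAt ((lev ht l).rep e.1) ((lev ht l).rep e.2)

/-- The weighted form of a level. -/
def kform (ht : IsTrans G) (w : ℕ → V × V → ℝ) (l : ℕ) (h : V → ℝ) : ℝ :=
  ∑ e ∈ lvlSet ht l, w l e * dif ht l e h ^ 2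

lemma kdeg_pos (ht : IsTrans G) {l : ℕ} (hl : l < height ht) :
    0 < kdeg (lev ht l) (lev ht (l + 1)) := by
  have h := (next_lt ht hl).keep
  have h2 : (0 : ℝ) < (lev ht l).ext := by exact_mod_cast ext_pos ht hl
  have h3 : (0 : ℝ) < kdeg (lev ht l) (lev ht (l + 1)) := by linarith
  exact_mod_cast h3

/-- Weights at one level. -/
lemma exists_level_weights (ht : IsTrans G) (l : ℕ) :
    ∃ w : V × V → ℝ, (∀ e, 0 < w e) ∧ (l < height ht → ∀ e ∈ lvlSet ht l, ∀ h,
      load ht l * (w e * dif ht l e h ^ 2) ≤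
        10 * ∑ f ∈ lvlSet ht l, w f * dif ht l f h ^ 2) := by
  by_cases hl : l < height ht
  swap
  · exact ⟨fun _ => 1, fun _ => one_pos, fun h => absurd h hl⟩
  set P := lev ht l
  set Q := lev ht (l + 1)
  have hN : Next P Q := next_lt ht hl
  set lam : ℝ := 11 / 20 * P.size * kdeg P Q with hlam
  have hlam0 : 0 < lam := by
    have h1 := P.size_pos
    have h2 : 0 < kdeg P Q := kdeg_pos ht hl
    positivity
  set ι := {e : V × V // e ∈ lvlSet ht l}
  obtain ⟨w, hw0, hw⟩ := exists_weights (ι := ι) (fun e => dif ht l e.1) (ρ := 1 / lam)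
    (ε := 2 / lam) (by positivity) (div_lt_div_of_pos_right one_lt_two hlam0) fun y hy =>
      exists_spanning (fun e : ι => e.1.1) (fun e => e.1.2) Q.rep P.rep hlam0
        (fun e => Q.rep_eq_iff.2 (mem_lvlSet.1 e.2).2)
        (fun u v huv => Q.rep_eq_iff.2 (hN.coarse _ _ (P.rep_eq_iff.1 huv)))
        (fun Z hZ u v hu hv huv hsub => by
          have hval : Valid P Q Z := ⟨fun x y hxy => hZ x y (P.rep_eq_iff.2 hxy), u, v, hu, hv,
            Q.rep_eq_iff.1 huv, fun x hx => by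
              simp only [Part.blk, Finset.mem_filter, Finset.mem_univ, true_and]
              exact Q.eqv.symm (Q.rep_eq_iff.1 (hsub x hx))⟩
          refine (hN.split Z hval).trans (le_of_eq ?_)
          norm_cast
          refine (Finset.card_bij (fun e _ => e.1) ?_ (fun a _ b _ h => Subtype.ext h) ?_).symm
          · intro e he
            simp only [Finset.mem_filter, Finset.mem_univ, true_and] at he
            simp only [Finset.mem_filter, Finset.mem_product, Finset.mem_compl]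
            exact ⟨he, mem_lvlSet.1 e.2⟩
          · intro p hp
            simp only [Finset.mem_filter, Finset.mem_product, Finset.mem_compl] at hp
            exact ⟨⟨p, mem_lvlSet.2 hp.2⟩, Finset.mem_filter.2 ⟨mem_univ _, hp.1⟩, rfl⟩)
        y hy
  refine ⟨fun e => if h : e ∈ lvlSet ht l then w ⟨e, h⟩ else 1,
    fun e => by simp only []; split_ifs; exacts [hw0 _, one_pos], fun _ e he h => ?_⟩
  have h1 := hw ⟨e, he⟩ h
  have h2 : ∑ f ∈ lvlSet ht l, (if h : f ∈ lvlSet ht l then w ⟨f, h⟩ else 1) * dif ht l f h ^ 2 =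
      ∑ f : ι, w f * dif ht l f.1 h ^ 2 := by
    rw [← Finset.sum_coe_sort]
    refine Finset.sum_congr rfl fun f _ => ?_
    rw [dif_pos f.2]
  simp only [dif_pos he]
  rw [h2]
  have h3 : load ht l * (2 / lam) ≤ 10 := by
    have hk := hN.keep
    rw [mul_div_assoc', div_le_iff₀ hlam0, hlam, load]
    nlinarith [mul_le_mul_of_nonneg_left hk (Nat.cast_nonneg (α := ℝ) P.size),
      mul_nonneg (Nat.cast_nonneg (α := ℝ) P.size) (Nat.cast_nonneg (α := ℝ) P.ext)]
  calc load ht l * (w ⟨e, he⟩ * dif ht l e h ^ 2)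
      ≤ load ht l * (2 / lam * ∑ f : ι, w f * dif ht l f.1 h ^ 2) :=
        mul_le_mul_of_nonneg_left h1 (load_pos ht hl).le
    _ ≤ _ := by
        rw [← mul_assoc]
        exact mul_le_mul_of_nonneg_right h3
          (Finset.sum_nonneg fun f _ => mul_nonneg (hw0 f).le (sq_nonneg _))

/-- The joint space: potentials, connectivity potentials and loads. -/
abbrev Joint (V : Type) : Type := (ℕ → V → ℝ) × (ℕ → V → ℝ) × (ℕ → V → ℝ)

/-- The first coordinate at a level. -/
def pX (V : Type) (l : ℕ) : Joint V →ₗ[ℝ] (V → ℝ) :=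
  (LinearMap.proj l : (ℕ → V → ℝ) →ₗ[ℝ] (V → ℝ)) ∘ₗ LinearMap.fst ℝ _ _

/-- The second coordinate at a level. -/
def pK (V : Type) (l : ℕ) : Joint V →ₗ[ℝ] (V → ℝ) :=
  (LinearMap.proj l : (ℕ → V → ℝ) →ₗ[ℝ] (V → ℝ)) ∘ₗ LinearMap.fst ℝ _ _ ∘ₗ LinearMap.snd ℝ _ _

/-- The third coordinate. -/
def pH (i : ℕ) (v : V) : Joint V →ₗ[ℝ] ℝ :=
  (LinearMap.proj v : (V → ℝ) →ₗ[ℝ] ℝ) ∘ₗ (LinearMap.proj i : (ℕ → V → ℝ) →ₗ[ℝ] (V → ℝ)) ∘ₗ
    LinearMap.snd ℝ _ _ ∘ₗ LinearMap.snd ℝ _ _

/-- The vector of an edge. -/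
def vec (ht : IsTrans G) (w : ℕ → V × V → ℝ) (e : V × V) : Joint V →ₗ[ℝ] ℝ :=
  dif ht (lvlOf ht e) e ∘ₗ pX V (lvlOf ht e) +
    Real.sqrt (w (lvlOf ht e) e) • (dif ht (lvlOf ht e) e ∘ₗ pK V (lvlOf ht e)) +
    ∑ i ∈ Icc 1 (lvlOf ht e), (pH i ((lev ht i).rep e.1) + pH i ((lev ht i).rep e.2))

lemma vec_apply (ht : IsTrans G) (w : ℕ → V × V → ℝ) (e : V × V) (z : Joint V) :
    vec ht w e z = dif ht (lvlOf ht e) e (z.1 (lvlOf ht e)) +
      Real.sqrt (w (lvlOf ht e) e) * dif ht (lvlOf ht e) e (z.2.1 (lvlOf ht e)) +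
      ∑ i ∈ Icc 1 (lvlOf ht e),
        (z.2.2 i ((lev ht i).rep e.1) + z.2.2 i ((lev ht i).rep e.2)) := by
  simp [vec, pX, pK, pH]

/-- The index of the regulariser. -/
abbrev RegIdx (V : Type) (L : ℕ) : Type :=
  (Fin L × V × V) ⊕ (Fin L × V × V) ⊕ (Fin (L + 1) × V)

/-- The regulariser. -/
def regv (ht : IsTrans G) (w : ℕ → V × V → ℝ) :
    RegIdx V (height ht) → Joint V →ₗ[ℝ] ℝ
  | Sum.inl (l, e) => (if G.Adj e.1 e.2 then Real.sqrt (rate ht l) else 0) •
      (dif ht l e ∘ₗ pX V l)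
  | Sum.inr (Sum.inl (l, e)) => (if e ∈ lvlSet ht l then Real.sqrt (rate ht l / 2 * w l e) else 0) •
      (dif ht l e ∘ₗ pK V l)
  | Sum.inr (Sum.inr (i, v)) => Real.sqrt (Lam * qq ^ (i : ℕ)) • pH i v

lemma reg_eq (ht : IsTrans G) {w : ℕ → V × V → ℝ} (hw : ∀ l e, 0 < w l e) (z : Joint V) :
    Reg (regv ht w) z =
      ∑ l ∈ range (height ht), rate ht l * energy G (fun x => z.1 l ((lev ht l).rep x)) +
      ∑ l ∈ range (height ht), rate ht l / 2 * kform ht w l (z.2.1 l) +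
      ∑ i ∈ range (height ht + 1), (Lam : ℝ) * qq ^ i * ∑ v, z.2.2 i v ^ 2 := by
  unfold Reg
  rw [Fintype.sum_sum_type, Fintype.sum_sum_type, ← add_assoc]
  congr 1
  congr 1
  · rw [Fintype.sum_prod_type, ← Fin.sum_univ_eq_sum_range]
    refine Finset.sum_congr rfl fun l _ => ?_
    simp only [regv, energy, Finset.mul_sum, LinearMap.smul_apply, LinearMap.comp_apply, dif,
      diffAt_apply, pX, LinearMap.proj_apply, LinearMap.fst_apply, smul_eq_mul, mul_pow]
    rw [Fintype.sum_prod_type]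
    refine Finset.sum_congr rfl fun a _ => Finset.sum_congr rfl fun b _ => ?_
    by_cases hA : G.Adj a b
    · simp [hA, Real.sq_sqrt (rate_pos ht l).le]
    · simp [hA]
  · rw [Fintype.sum_prod_type, ← Fin.sum_univ_eq_sum_range]
    refine Finset.sum_congr rfl fun l _ => ?_
    simp only [regv, kform, Finset.mul_sum, LinearMap.smul_apply, LinearMap.comp_apply,
      pK, LinearMap.proj_apply, LinearMap.fst_apply, LinearMap.snd_apply, smul_eq_mul, mul_pow]
    rw [← Finset.sum_filter_add_sum_filter_not univ (fun e => e ∈ lvlSet ht l),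
      Finset.filter_univ_mem, Finset.sum_eq_zero (s := univ.filter fun e => e ∉ lvlSet ht l)
        fun e he => by simp [(Finset.mem_filter.1 he).2], add_zero]
    refine Finset.sum_congr rfl fun e he => ?_
    rw [if_pos he, Real.sq_sqrt (mul_nonneg (by linarith [rate_pos ht l]) (hw _ _).le)]
    ring
  · rw [Fintype.sum_prod_type, ← Fin.sum_univ_eq_sum_range]
    refine Finset.sum_congr rfl fun i _ => ?_
    simp only [regv, Finset.mul_sum, LinearMap.smul_apply, LinearMap.comp_apply, pH,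
      LinearMap.proj_apply, LinearMap.snd_apply, smul_eq_mul, mul_pow]
    refine Finset.sum_congr rfl fun v _ => ?_
    rw [Real.sq_sqrt (mul_nonneg Lam_pos.le (by unfold qq; positivity))]

lemma kform_nonneg (ht : IsTrans G) {w : ℕ → V × V → ℝ} (hw : ∀ l e, 0 < w l e) (l : ℕ)
    (h : V → ℝ) : 0 ≤ kform ht w l h :=
  Finset.sum_nonneg fun e _ => mul_nonneg (hw l e).le (sq_nonneg _)

lemma sum_inv_le (l : ℕ) : ∑ i ∈ Icc 1 l, 1 / ((Lam : ℝ) * qq ^ i) ≤ 20 / Lam := by
  have hr : (0 : ℝ) ≤ 20 / 21 := by norm_num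
  have h : ∑ i ∈ Finset.Ico 1 (l + 1), (20 / 21 : ℝ) ^ i ≤ (20 / 21) ^ 1 / (1 - 20 / 21) :=
    geom_sum_Ico_le_of_lt_one hr (by norm_num)
  have e : ∑ i ∈ Icc 1 l, 1 / ((Lam : ℝ) * qq ^ i) =
      1 / Lam * ∑ i ∈ Finset.Ico 1 (l + 1), (20 / 21 : ℝ) ^ i := by
    rw [Finset.mul_sum]
    refine Finset.sum_congr (by ext i; simp) fun i _ => ?_
    rw [one_div_mul_one_div_rev ((qq) ^ i) (Lam : ℝ) |>.symm, qq, div_pow, div_pow]
    field_simp
  rw [e]
  calc 1 / (Lam : ℝ) * _ ≤ 1 / Lam * 20 :=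
        mul_le_mul_of_nonneg_left (h.trans (by norm_num)) (by positivity)
    _ = 20 / Lam := by ring

lemma lev_le (ht : IsTrans G) {w : ℕ → V × V → ℝ} (hw : ∀ l e, 0 < w l e)
    (hwl : ∀ l, l < height ht → ∀ e ∈ lvlSet ht l, ∀ h,
      load ht l * (w l e * dif ht l e h ^ 2) ≤ 10 * kform ht w l h)
    {e : V × V} (he : e ∈ allEdges ht) (hτ : 1 ≤ rounds ht (lvlOf ht e)) (z : Joint V) :
    vec ht w e z ^ 2 ≤ 360 / Lam * Reg (regv ht w) z := by
  obtain ⟨l, hl, hel⟩ := Finset.mem_biUnion.1 he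
  rw [Finset.mem_range] at hl
  have hlv := lvlOf_eq ht hl hel
  rw [hlv] at hτ
  rw [vec_apply, hlv, reg_eq ht hw]
  set x := dif ht l e (z.1 l)
  set y := Real.sqrt (w l e) * dif ht l e (z.2.1 l)
  set A := ∑ i ∈ Icc 1 l, z.2.2 i ((lev ht i).rep e.1)
  set B := ∑ i ∈ Icc 1 l, z.2.2 i ((lev ht i).rep e.2)
  set BX := ∑ l ∈ range (height ht), rate ht l * energy G (fun x => z.1 l ((lev ht l).rep x))
  set BK := ∑ l ∈ range (height ht), rate ht l / 2 * kform ht w l (z.2.1 l)
  set BH := ∑ i ∈ range (height ht + 1), (Lam : ℝ) * qq ^ i * ∑ v, z.2.2 i v ^ 2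
  have hL := Lam_pos
  have hD := load_pos ht hl
  have hrl := le_rate ht hτ
  have hx : x ^ 2 * Lam ≤ 20 * BX := by
    have hg := ((mem_lvlSet.1 hel).1.2 _ ((lev ht l).resp_rep (z.1 l)))
    have hb : rate ht l * energy G (fun x => z.1 l ((lev ht l).rep x)) ≤ BX :=
      Finset.single_le_sum (f := fun l => rate ht l * energy G (fun x => z.1 l ((lev ht l).rep x)))
        (fun i _ => mul_nonneg (rate_pos ht i).le (energy_nonneg _)) (Finset.mem_range.2 hl)
    have hg' : load ht l * x ^ 2 ≤ 20 * energy G (fun x => z.1 l ((lev ht l).rep x)) := hg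
    calc x ^ 2 * Lam ≤ x ^ 2 * (rate ht l * load ht l) :=
          mul_le_mul_of_nonneg_left hrl (sq_nonneg _)
      _ = rate ht l * (load ht l * x ^ 2) := by ring
      _ ≤ rate ht l * (20 * energy G (fun x => z.1 l ((lev ht l).rep x))) :=
          mul_le_mul_of_nonneg_left hg' (rate_pos ht l).le
      _ ≤ 20 * BX := by linarith
  have hy : y ^ 2 * Lam ≤ 20 * BK := by
    have hb : rate ht l / 2 * kform ht w l (z.2.1 l) ≤ BK :=
      Finset.single_le_sum (f := fun l => rate ht l / 2 * kform ht w l (z.2.1 l))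
        (fun i _ => mul_nonneg (by linarith [rate_pos ht i]) (kform_nonneg ht hw _ _))
        (Finset.mem_range.2 hl)
    have hy2 : y ^ 2 = w l e * dif ht l e (z.2.1 l) ^ 2 := by
      simp only [y, mul_pow, Real.sq_sqrt (hw l e).le]
    calc y ^ 2 * Lam ≤ y ^ 2 * (rate ht l * load ht l) :=
          mul_le_mul_of_nonneg_left hrl (sq_nonneg _)
      _ = rate ht l * (load ht l * (w l e * dif ht l e (z.2.1 l) ^ 2)) := by rw [hy2]; ring
      _ ≤ rate ht l * (10 * kform ht w l (z.2.1 l)) :=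
          mul_le_mul_of_nonneg_left (hwl l hl e hel _) (rate_pos ht l).le
      _ ≤ 20 * BK := by linarith
  have hside : ∀ u : V, (∑ i ∈ Icc 1 l, z.2.2 i ((lev ht i).rep u)) ^ 2 * Lam ≤ 20 * BH := by
    intro u
    have hq : ∀ i : ℕ, (0 : ℝ) < qq ^ i := fun i => pow_pos (by norm_num [qq]) _
    have h1 := Finset.sum_sq_le_sum_mul_sum_of_sq_eq_mul (Icc 1 l)
      (r := fun i => z.2.2 i ((lev ht i).rep u))
      (f := fun i => 1 / ((Lam : ℝ) * qq ^ i))
      (g := fun i => (Lam : ℝ) * qq ^ i * z.2.2 i ((lev ht i).rep u) ^ 2)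
      (fun i _ => by have := hq i; positivity) (fun i _ => by have := hq i; positivity)
      (fun i _ => by have := hq i; field_simp)
    have h2 : ∑ i ∈ Icc 1 l, (Lam : ℝ) * qq ^ i * z.2.2 i ((lev ht i).rep u) ^ 2 ≤ BH := by
      refine (Finset.sum_le_sum_of_subset_of_nonneg (fun i hi => ?_) fun i _ _ => ?_).trans
        (Finset.sum_le_sum fun i _ => mul_le_mul_of_nonneg_left
          (Finset.single_le_sum (f := fun v => z.2.2 i v ^ 2) (fun v _ => sq_nonneg _)
            (Finset.mem_univ _)) (mul_nonneg hL.le (hq i).le))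
      · simp only [Finset.mem_Icc] at hi
        simp only [Finset.mem_range]
        omega
      · have := hq i; positivity
    have h3 : 0 ≤ ∑ i ∈ Icc 1 l, (Lam : ℝ) * qq ^ i * z.2.2 i ((lev ht i).rep u) ^ 2 :=
      Finset.sum_nonneg fun i _ => by have := hq i; positivity
    calc _ ≤ (20 / (Lam : ℝ) * BH) * Lam := mul_le_mul_of_nonneg_right
          (h1.trans (mul_le_mul (sum_inv_le l) h2 h3 (by positivity))) hL.le
      _ = 20 * BH := by field_simp
  have hA : A ^ 2 * Lam ≤ 20 * BH := hside e.1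
  have hB : B ^ 2 * Lam ≤ 20 * BH := hside e.2
  rw [Finset.sum_add_distrib, div_mul_eq_mul_div, le_div_iff₀ hL]
  have hsq : (x + y + (A + B)) ^ 2 ≤ 3 * x ^ 2 + 3 * y ^ 2 + 6 * A ^ 2 + 6 * B ^ 2 := by
    nlinarith [sq_nonneg (x - y), sq_nonneg (x - (A + B)), sq_nonneg (y - (A + B)),
      sq_nonneg (A - B)]
  have h0X : 0 ≤ BX := by linarith [mul_nonneg (sq_nonneg x) hL.le]
  have h0K : 0 ≤ BK := by linarith [mul_nonneg (sq_nonneg y) hL.le]
  have h0H : 0 ≤ BH := by linarith [mul_nonneg (sq_nonneg A) hL.le]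
  nlinarith [mul_le_mul_of_nonneg_right hsq hL.le]

end Vale.P061.Transitive
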