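import Vale.Agent.P061.Transitive.Step

/-!
P061, vertex-transitive graphs: the hierarchy of blocks, its growth, and rounding of a cut.
-/

noncomputable section

namespace Vale.P061.Transitive

open Finset
open scoped Classical

variable {V : Type} [Fintype V] [Nonempty V] {G : SimpleGraph V}

/-- The singletons. -/
def botPart (G : SimpleGraph V) : Part G :=
  ⟨Eq, eq_equivalence, fun φ _ _ => φ.injective.eq_iff⟩

/-- The next partition. -/
def step (ht : IsTrans G) (P : Part G) : Part G :=
  if h : 0 < P.ext then (exists_next ht h).choose else P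

/-- The hierarchy. -/
def lev (ht : IsTrans G) : ℕ → Part G
  | 0 => botPart G
  | l + 1 => step ht (lev ht l)

lemma next_lev (ht : IsTrans G) {l : ℕ} (h : 0 < (lev ht l).ext) :
    Next (lev ht l) (lev ht (l + 1)) := by
  show Next _ (step ht (lev ht l))
  rw [step, dif_pos h]
  exact (exists_next ht h).choose_spec

lemma lev_coarse (ht : IsTrans G) (l : ℕ) {x y : V} (h : (lev ht l).rel x y) :
    (lev ht (l + 1)).rel x y := by
  rcases Nat.eq_zero_or_pos (lev ht l).ext with h0 | h0
  · show (step ht (lev ht l)).rel x y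
    rw [step, dif_neg (by omega)]
    exact h
  · exact (next_lev ht h0).coarse x y h

lemma lev_mono (ht : IsTrans G) {i j : ℕ} (hij : i ≤ j) {x y : V} (h : (lev ht i).rel x y) :
    (lev ht j).rel x y := by
  induction hij with
  | refl => exact h
  | step _ ih => exact lev_coarse ht _ ih

lemma size_le_card (P : Part G) : P.size ≤ Fintype.card V := Finset.card_le_univ _

lemma exists_top (ht : IsTrans G) : ∃ l, (lev ht l).ext = 0 := by
  by_contra h
  push Not at h
  have key : ∀ l, 2 ^ l ≤ (lev ht l).size := fun l => by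
    induction l with
    | zero => exact (botPart G).size_pos
    | succ l ih =>
      have := (next_lev ht (Nat.pos_of_ne_zero (h l))).double
      rw [pow_succ]; omega
  have h1 := key (Fintype.card V)
  have h2 := size_le_card (lev ht (Fintype.card V))
  exact absurd (h1.trans h2) (Nat.not_le.2 Nat.lt_two_pow_self)

/-- The number of levels. -/
def height (ht : IsTrans G) : ℕ := Nat.find (exists_top ht)

lemma ext_pos (ht : IsTrans G) {l : ℕ} (h : l < height ht) : 0 < (lev ht l).ext :=
  Nat.pos_of_ne_zero (Nat.find_min (exists_top ht) h)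

lemma next_lt (ht : IsTrans G) {l : ℕ} (h : l < height ht) :
    Next (lev ht l) (lev ht (l + 1)) := next_lev ht (ext_pos ht h)

lemma top_all (ht : IsTrans G) (hconn : G.Connected) (u v : V) :
    (lev ht (height ht)).rel u v := by
  set P := lev ht (height ht)
  have h0 : P.ext = 0 := Nat.find_spec (exists_top ht)
  have hadj : ∀ a b, G.Adj a b → P.rel a b := fun a b hab => by
    by_contra h
    have h1 := P.card_out ht a
    rw [h0] at h1
    have h2 : b ∈ ({x | P.out a x} : Finset V) := Finset.mem_filter.2 ⟨mem_univ _, hab, h⟩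
    rw [deg, Finset.card_eq_zero] at h1
    rw [h1] at h2
    exact Finset.notMem_empty _ h2
  obtain ⟨w⟩ := hconn u v
  induction w with
  | nil => exact P.eqv.refl _
  | cons h _ ih => exact P.eqv.trans (hadj _ _ h) ih

/-- The degree. -/
def degree (G : SimpleGraph V) : ℕ := deg G.Adj (Classical.arbitrary V)

lemma bot_size (G : SimpleGraph V) : (botPart G).size = 1 := by
  simp only [Part.size, deg, botPart]
  rw [Finset.card_eq_one]
  exact ⟨Classical.arbitrary V, by ext x; simp [eq_comm]⟩

lemma bot_ext (G : SimpleGraph V) : (botPart G).ext = degree G := by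
  unfold Part.ext degree deg
  congr 1
  ext v
  simp only [Finset.mem_filter, Finset.mem_univ, true_and]
  exact ⟨And.left, fun h => ⟨h, G.ne_of_adj h⟩⟩

lemma size_growth (ht : IsTrans G) {i j : ℕ} (hij : i ≤ j) (hj : j ≤ height ht) :
    2 ^ (j - i) * (lev ht i).size ≤ (lev ht j).size := by
  induction hij with
  | refl => simp
  | @step j hij ih =>
    have h := (next_lt ht (show j < height ht by omega)).double
    have := ih (by omega)
    have hij' : i ≤ j := hij
    rw [show j + 1 - i = (j - i) + 1 by omega, pow_succ]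
    calc _ = 2 * (2 ^ (j - i) * (lev ht i).size) := by ring
      _ ≤ 2 * (lev ht j).size := by omega
      _ ≤ _ := h

/-- The product of block size and outside degree grows geometrically. -/
lemma load_growth (ht : IsTrans G) {l : ℕ} (hl : l < height ht) :
    (degree G : ℝ) * 2 ^ l / 5 ≤ (lev ht l).size * (lev ht l).ext := by
  rcases Nat.eq_zero_or_pos l with rfl | hl0
  · rw [show lev ht 0 = botPart G from rfl, bot_size, bot_ext]
    push_cast
    linarith [(Nat.cast_nonneg (degree G) : (0 : ℝ) ≤ _)]
  · have hN := next_lt ht (show 0 < height ht by omega)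
    have h1 : kdeg (lev ht 0) (lev ht 1) + 1 ≤ (lev ht 1).size := by
      refine Nat.succ_le_of_lt (Finset.card_lt_card ⟨fun x hx => ?_, fun hsub => ?_⟩)
      · rw [Finset.mem_filter] at hx ⊢
        exact ⟨hx.1, hx.2.2⟩
      · have h := hsub (Finset.mem_filter.2 ⟨mem_univ (Classical.arbitrary V),
          (lev ht 1).eqv.refl _⟩)
        exact (Finset.mem_filter.1 h).2.1.1.1.ne rfl
    have hk := hN.keep
    rw [show lev ht 0 = botPart G from rfl, bot_ext] at hk
    have h2 : (2 / 5 : ℝ) * degree G ≤ (lev ht 1).size := by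
      refine hk.trans (Nat.cast_le.2 ?_)
      exact le_trans (Nat.le_succ _) h1
    have h3 : ((2 : ℝ) ^ (l - 1)) * (lev ht 1).size ≤ (lev ht l).size := by
      exact_mod_cast size_growth ht hl0 hl.le
    have h4 : (1 : ℝ) ≤ (lev ht l).ext := by exact_mod_cast ext_pos ht hl
    calc (degree G : ℝ) * 2 ^ l / 5 = 2 ^ (l - 1) * (2 / 5 * degree G) := by
          rw [show (2 : ℝ) ^ l = 2 ^ (l - 1) * 2 by rw [← pow_succ, show l - 1 + 1 = l by omega]]
          ring
      _ ≤ 2 ^ (l - 1) * (lev ht 1).size := mul_le_mul_of_nonneg_left h2 (by positivity)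
      _ ≤ (lev ht l).size * 1 := by rw [mul_one]; exact h3
      _ ≤ _ := mul_le_mul_of_nonneg_left h4 (Nat.cast_nonneg _)

/-! ### Rounding -/

/-- The majority of the block. -/
def major (P : Part G) (S : Finset V) (v : V) : Prop := P.size < 2 * (S ∩ P.blk v).card

/-- The vertices on which the majority differs from the set. -/
def diff (P : Part G) (S : Finset V) : Finset V := {v | ¬(major P S v ↔ v ∈ S)}

/-- The cut size in a graph. -/
def cutN (G : SimpleGraph V) (S : Finset V) : ℕ :=
  ((S ×ˢ Sᶜ).filter fun p => G.Adj p.1 p.2).card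

lemma major_resp (P : Part G) (S : Finset V) : P.Resp (major P S) := fun x y h => by
  have : P.blk x = P.blk y := by
    ext z
    simp only [Part.blk, Finset.mem_filter, Finset.mem_univ, true_and]
    exact ⟨P.eqv.trans (P.eqv.symm h), P.eqv.trans h⟩
  unfold major
  rw [this]

lemma diff_bot (G : SimpleGraph V) (S : Finset V) : diff (botPart G) S = ∅ := by
  ext v
  have hb : (botPart G).blk v = {v} := by
    ext x
    simp only [Part.blk, botPart, Finset.mem_singleton]
    exact ⟨fun h => ((Finset.mem_filter.1 h).2).symm,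
      fun h => Finset.mem_filter.2 ⟨mem_univ _, h.symm⟩⟩
  by_cases h : v ∈ S <;> simp [diff, major, bot_size, hb, h]

lemma cut_major_le (ht : IsTrans G) (P : Part G) (S : Finset V) :
    cutN G ({v | major P S v} : Finset V) ≤ cutN G S + P.ext * (diff P S).card := by
  have h1 : (((diff P S) ×ˢ (univ : Finset V)).filter fun p => P.out p.1 p.2).card =
      P.ext * (diff P S).card := by
    rw [Finset.card_filter, Finset.sum_product, mul_comm, ← smul_eq_mul, ← Finset.sum_const]
    exact Finset.sum_congr rfl fun a _ => by rw [← Finset.card_filter]; exact P.card_out ht a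
  set A := ((S ×ˢ Sᶜ).filter fun p => G.Adj p.1 p.2) with hA
  set D := (((diff P S) ×ˢ (univ : Finset V)).filter fun p => P.out p.1 p.2) with hD
  set R : Finset V := {v | major P S v} with hR
  have hout : ∀ p ∈ (R ×ˢ Rᶜ).filter (fun p => G.Adj p.1 p.2), P.out p.1 p.2 := fun p hp => by
    simp only [Finset.mem_filter, Finset.mem_product, Finset.mem_compl, hR, Finset.mem_univ,
      true_and] at hp
    exact ⟨hp.2, fun h => hp.1.2 ((major_resp P S _ _ h) ▸ hp.1.1)⟩
  refine le_trans ?_ (Nat.add_le_add (le_refl A.card) h1.le)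
  refine le_trans (Finset.card_le_card_of_injOn
    (t := A.disjSum D) (fun p => if p.1 ∈ S ∧ p.2 ∉ S then Sum.inl p else
      if p.1 ∉ S then Sum.inr p else Sum.inr (p.2, p.1)) ?_ ?_) (Finset.card_disjSum _ _).le
  · intro p hp
    have ho := hout p hp
    simp only [Finset.mem_coe, Finset.mem_filter, Finset.mem_product, Finset.mem_compl, hR,
      Finset.mem_univ, true_and] at hp
    by_cases hc : p.1 ∈ S ∧ p.2 ∉ S
    · simp [hc, hA, hp.2]
    · by_cases h1 : p.1 ∈ S
      · have h2 : p.2 ∈ S := by tauto
        simp [h1, h2, hD, diff, hp.1.2, P.out_symm ho]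
      · simp [h1, hD, diff, hp.1.1, ho]
  · intro p hp q hq hpq
    simp only [Finset.mem_coe, Finset.mem_filter, Finset.mem_product, Finset.mem_compl, hR,
      Finset.mem_univ, true_and] at hp hq
    simp only at hpq
    obtain ⟨p1, p2⟩ := p
    obtain ⟨q1, q2⟩ := q
    split_ifs at hpq <;> simp_all

variable {P Q : Part G}

lemma blk_sum (ht : IsTrans G) (hc : ∀ x y, P.rel x y → Q.rel x y) (S : Finset V) (u : V) :
    ∑ x ∈ Q.blk u, (S ∩ P.blk x).card = P.size * (S ∩ Q.blk u).card := by
  have h : ∀ x, (S ∩ P.blk x).card = ∑ y ∈ S, if P.rel x y then 1 else 0 := fun x => by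
    rw [← Finset.card_filter]
    congr 1
    ext y
    simp [Part.blk]
  have hblk : ∀ y, ∑ x ∈ Q.blk u, (if P.rel x y then 1 else 0) =
      if Q.rel u y then P.size else 0 := fun y => by
    rw [← Finset.card_filter]
    split_ifs with hy
    · rw [← P.card_blk ht y]
      congr 1
      ext x
      simp only [Part.blk, Finset.mem_filter, Finset.mem_univ, true_and]
      exact ⟨fun h => P.eqv.symm h.2, fun h => ⟨Q.eqv.trans hy (hc _ _ h), P.eqv.symm h⟩⟩
    · rw [Finset.card_eq_zero, Finset.filter_eq_empty_iff]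
      exact fun x hx h => hy (Q.eqv.trans (by simpa [Part.blk] using hx) (hc _ _ h))
  simp only [h, Finset.sum_comm (s := Q.blk u), hblk]
  rw [← Finset.sum_filter, Finset.sum_const, smul_eq_mul, mul_comm]
  congr 2
  ext y
  simp [Part.blk]

/-- A block is split when its sub-blocks have different majorities. -/
def IsSplit (P Q : Part G) (S : Finset V) (B : V) : Prop :=
  ∃ x y, Q.rel B x ∧ Q.rel B y ∧ major P S x ∧ ¬major P S y

lemma major_of_not_split (ht : IsTrans G) (hc : ∀ x y, P.rel x y → Q.rel x y) {S : Finset V}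
    {B x : V} (hB : ¬IsSplit P Q S B) (hx : Q.rel B x) : major Q S x ↔ major P S x := by
  have hall : ∀ y ∈ Q.blk x, major P S y ↔ major P S x := fun y hy => by
    have hy' : Q.rel B y := Q.eqv.trans hx (by simpa [Part.blk] using hy)
    exact ⟨fun h => by_contra fun h' => hB ⟨y, x, hy', hx, h, h'⟩,
      fun h => by_contra fun h' => hB ⟨x, y, hx, hy', h, h'⟩⟩
  have hs := blk_sum ht hc S x
  unfold major at hall ⊢
  by_cases h : P.size < 2 * (S ∩ P.blk x).card
  · simp only [h, iff_true] at hall ⊢
    have h2 : ∑ _y ∈ Q.blk x, P.size < ∑ y ∈ Q.blk x, 2 * (S ∩ P.blk y).card :=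
      Finset.sum_lt_sum_of_nonempty ⟨x, by simp [Part.blk, Q.eqv.refl]⟩ hall
    rw [Finset.sum_const, smul_eq_mul, ← Finset.mul_sum, hs, Q.card_blk ht] at h2
    by_contra h3
    nlinarith [Nat.mul_le_mul_left P.size (not_lt.1 h3)]
  · simp only [h, iff_false, not_lt] at hall ⊢
    have h2 := Finset.sum_le_sum hall
    rw [← Finset.mul_sum, hs, Finset.sum_const, smul_eq_mul, Q.card_blk ht] at h2
    exact le_of_mul_le_mul_left (by linarith : P.size * (2 * (S ∩ Q.blk x).card) ≤ P.size * Q.size)
      P.size_pos

/-- The rounding errors in one block. -/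
def diffIn (P Q : Part G) (S : Finset V) (B : V) : ℕ := (diff P S ∩ Q.blk B).card

/-- The kept edges leaving `S` inside one block. -/
def cutIn (P Q : Part G) (S : Finset V) (B : V) : ℕ :=
  (((S ∩ Q.blk B) ×ˢ Sᶜ).filter fun p => kept P Q p.1 p.2).card

lemma diffIn_top_le (ht : IsTrans G) (S : Finset V) (B : V) : 2 * diffIn Q Q S B ≤ Q.size := by
  have hres : ∀ x ∈ Q.blk B, major Q S x ↔ major Q S B := fun x hx => by
    simp only [Part.blk, Finset.mem_filter, Finset.mem_univ, true_and] at hx
    rw [major_resp Q S B x hx]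
  by_cases h : major Q S B
  · have : diff Q S ∩ Q.blk B = Q.blk B \ S := by
      ext x
      by_cases hx : x ∈ Q.blk B <;> simp [diff, hx, hres, h]
    rw [diffIn, this, Finset.card_sdiff, Q.card_blk ht]
    unfold major at h
    omega
  · have : diff Q S ∩ Q.blk B = S ∩ Q.blk B := by
      ext x
      by_cases hx : x ∈ Q.blk B <;> simp [diff, hx, hres, h]
    rw [diffIn, this]
    unfold major at h
    omega

lemma split_cost (ht : IsTrans G) (hN : Next P Q) (S : Finset V) {B : V} (hB : IsSplit P Q S B) :
    (11 / 20 : ℝ) * P.size * kdeg P Q ≤ cutIn P Q S B + kdeg P Q * diffIn P Q S B := by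
  obtain ⟨x, y, hx, hy, hmx, hmy⟩ := hB
  set Z : Finset V := (Q.blk B).filter (major P S) with hZ
  have hv : Valid P Q Z := by
    refine ⟨fun a b hab => ?_, x, y, ?_, ?_, Q.eqv.trans (Q.eqv.symm hx) hy, fun a ha => ?_⟩
    · simp only [hZ, Finset.mem_filter, Part.blk, Finset.mem_univ, true_and,
        major_resp P S a b hab]
      exact and_congr_left fun _ => ⟨fun h => Q.eqv.trans h (hN.coarse _ _ hab),
        fun h => Q.eqv.trans h (Q.eqv.symm (hN.coarse _ _ hab))⟩
    · simp [hZ, Part.blk, hx, hmx]
    · simp [hZ, hmy]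
    · simp only [hZ, Finset.mem_filter, Part.blk, Finset.mem_univ, true_and] at ha ⊢
      exact Q.eqv.trans (Q.eqv.symm hx) ha.1
  refine (hN.split Z hv).trans ?_
  have hle : leave P Q Z ≤ cutIn P Q S B + kdeg P Q * diffIn P Q S B := by
    set D := (((diff P S ∩ Q.blk B)) ×ˢ (univ : Finset V)).filter fun p => kept P Q p.1 p.2 with hD
    have h1 : D.card = kdeg P Q * diffIn P Q S B := by
      rw [hD, Finset.card_filter, Finset.sum_product, diffIn, mul_comm, ← smul_eq_mul,
        ← Finset.sum_const]
      exact Finset.sum_congr rfl fun a _ => by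
        rw [← Finset.card_filter]; exact deg_eq ht (inv_kept P Q) a _
    rw [← h1]
    refine le_trans (Finset.card_le_card_of_injOn
      (t := (((S ∩ Q.blk B) ×ˢ Sᶜ).filter fun p => kept P Q p.1 p.2).disjSum D)
      (fun p => if p.1 ∈ S ∧ p.2 ∉ S then Sum.inl p else
        if p.1 ∉ S then Sum.inr p else Sum.inr (p.2, p.1)) ?_ ?_) (Finset.card_disjSum _ _).le
    · intro p hp
      simp only [Finset.mem_coe, Finset.mem_filter, Finset.mem_product, Finset.mem_compl, hZ,
        not_and] at hp
      obtain ⟨⟨⟨ha, hma⟩, hnc⟩, hk⟩ := hp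
      have hc : p.2 ∈ Q.blk B := by
        simp only [Part.blk, Finset.mem_filter, Finset.mem_univ, true_and] at ha ⊢
        exact Q.eqv.trans ha hk.2
      by_cases hc' : p.1 ∈ S ∧ p.2 ∉ S
      · simp [hc', ha, hk]
      · by_cases h1 : p.1 ∈ S
        · have h2 : p.2 ∈ S := by tauto
          simp [h1, h2, hD, diff, hc, hnc hc, kept_symm hk]
        · simp [h1, hD, diff, ha, hma, hk]
    · intro p hp q hq hpq
      simp only [Finset.mem_coe, Finset.mem_filter, Finset.mem_product, Finset.mem_compl, hZ]
        at hp hq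
      simp only at hpq
      obtain ⟨p1, p2⟩ := p
      obtain ⟨q1, q2⟩ := q
      split_ifs at hpq <;> simp_all
  exact_mod_cast hle

lemma sum_blocks (Q : Part G) (A : Finset V) :
    ∑ B ∈ univ.image Q.rep, (A ∩ Q.blk B).card = A.card := by
  rw [Finset.card_eq_sum_card_fiberwise (f := Q.rep) (t := univ.image Q.rep)
    fun x _ => Finset.mem_image_of_mem _ (mem_univ x)]
  refine Finset.sum_congr rfl fun B hB => ?_
  obtain ⟨u, -, rfl⟩ := Finset.mem_image.1 hB
  congr 1
  ext x
  simp only [Finset.mem_inter, Part.blk, Finset.mem_filter, Finset.mem_univ, true_and,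
    Q.rep_eq_iff]
  exact and_congr_right fun _ => ⟨fun h => Q.eqv.symm (Q.eqv.trans (Q.eqv.symm (Q.rel_rep u)) h),
    fun h => Q.eqv.trans (Q.rel_rep u) (Q.eqv.symm h)⟩

lemma sum_cutIn_le (P Q : Part G) (S : Finset V) :
    ∑ B ∈ univ.image Q.rep, cutIn P Q S B ≤ cutN G S := by
  unfold cutIn
  rw [← Finset.card_biUnion]
  · refine Finset.card_le_card fun p hp => ?_
    obtain ⟨B, -, hp⟩ := Finset.mem_biUnion.1 hp
    simp only [Finset.mem_filter, Finset.mem_product, Finset.mem_inter] at hp ⊢
    exact ⟨⟨hp.1.1.1, hp.1.2⟩, hp.2.1.1.1⟩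
  · intro B hB C hC hne
    refine Finset.disjoint_left.2 fun p hp hp' => hne ?_
    obtain ⟨b, -, rfl⟩ := Finset.mem_image.1 (Finset.mem_coe.1 hB)
    obtain ⟨c, -, rfl⟩ := Finset.mem_image.1 (Finset.mem_coe.1 hC)
    simp only [Finset.mem_filter, Finset.mem_product, Finset.mem_inter, Part.blk, Finset.mem_univ,
      true_and] at hp hp'
    rw [← Q.rep_rep b, ← Q.rep_rep c]
    exact Q.rep_eq_iff.2 (Q.eqv.trans hp.1.1.2 (Q.eqv.symm hp'.1.1.2))

/-- The normalised rounding error. -/
def err (P : Part G) (S : Finset V) : ℝ := (diff P S).card / P.size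

lemma err_nonneg (P : Part G) (S : Finset V) : 0 ≤ err P S := by unfold err; positivity

/-- Split blocks are few, and the rounding error contracts. -/
lemma round_step (ht : IsTrans G) (hN : Next P Q) (hf : 0 < kdeg P Q) (S : Finset V) :
    err Q S ≤ 10 / 11 * (cutN G S / (P.size * kdeg P Q) + err P S) ∧
      (((univ.image Q.rep).filter (IsSplit P Q S)).card : ℝ) ≤
        20 / 11 * (cutN G S / (P.size * kdeg P Q) + err P S) := by
  have hm : (0 : ℝ) < P.size := by exact_mod_cast P.size_pos
  have hM : (0 : ℝ) < Q.size := by exact_mod_cast Q.size_pos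
  have hk : (0 : ℝ) < kdeg P Q := by exact_mod_cast hf
  set d : ℝ := P.size * kdeg P Q with hd
  set t : V → ℝ := fun B => cutIn P Q S B / d + diffIn P Q S B / P.size with ht'
  have hT : ∑ B ∈ univ.image Q.rep, t B ≤ cutN G S / d + err P S := by
    simp only [ht', Finset.sum_add_distrib, ← Finset.sum_div, err]
    refine add_le_add (div_le_div_of_nonneg_right ?_ (by positivity)) (le_of_eq ?_)
    · exact_mod_cast sum_cutIn_le P Q S
    · congr 1
      exact_mod_cast sum_blocks Q (diff P S)
  have ht0 : ∀ B, 0 ≤ t B := fun B => by simp only [ht']; positivity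
  have hsplit : ∀ B, IsSplit P Q S B → (11 / 20 : ℝ) ≤ t B := fun B hB => by
    have h := split_cost ht hN S hB
    simp only [ht', hd]
    rw [div_add_div _ _ (by positivity) (by positivity), le_div_iff₀ (by positivity)]
    nlinarith [mul_le_mul_of_nonneg_left h hm.le]
  refine ⟨?_, ?_⟩
  · have hB : ∀ B ∈ univ.image Q.rep, (diffIn Q Q S B : ℝ) / Q.size ≤ 10 / 11 * t B := by
      intro B _
      by_cases hs : IsSplit P Q S B
      · have h1 : (diffIn Q Q S B : ℝ) / Q.size ≤ 1 / 2 := by
          rw [div_le_iff₀ hM]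
          have : (2 : ℝ) * diffIn Q Q S B ≤ Q.size := by exact_mod_cast diffIn_top_le ht S B
          linarith
        linarith [hsplit B hs]
      · have h1 : diffIn Q Q S B = diffIn P Q S B := by
          unfold diffIn
          congr 1
          ext x
          by_cases hx : x ∈ Q.blk B
          · have hx' : Q.rel B x := by simpa [Part.blk] using hx
            simp [hx, diff, major_of_not_split ht hN.coarse hs hx']
          · simp [hx]
        have h2 : (2 : ℝ) * P.size ≤ Q.size := by exact_mod_cast hN.double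
        rw [h1]
        have h3 : (diffIn P Q S B : ℝ) / Q.size ≤ diffIn P Q S B / (2 * P.size) :=
          div_le_div_of_nonneg_left (Nat.cast_nonneg _) (by positivity) h2
        have h4 : (diffIn P Q S B : ℝ) / (2 * P.size) = 1 / 2 * (diffIn P Q S B / P.size) := by
          field_simp
        have h5 : (0 : ℝ) ≤ cutIn P Q S B / d := by positivity
        have h6 : (0 : ℝ) ≤ diffIn P Q S B / P.size := by positivity
        simp only [ht']
        linarith
    calc err Q S = ∑ B ∈ univ.image Q.rep, (diffIn Q Q S B : ℝ) / Q.size := by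
          rw [err, ← Finset.sum_div]
          congr 1
          exact_mod_cast (sum_blocks Q (diff Q S)).symm
      _ ≤ ∑ B ∈ univ.image Q.rep, 10 / 11 * t B := Finset.sum_le_sum hB
      _ ≤ _ := by rw [← Finset.mul_sum]; linarith
  · have h : (((univ.image Q.rep).filter (IsSplit P Q S)).card : ℝ) * (11 / 20) ≤
        ∑ B ∈ univ.image Q.rep, t B := by
      rw [← nsmul_eq_mul, ← Finset.sum_const]
      exact (Finset.sum_le_sum fun B hB => hsplit B (Finset.mem_filter.1 hB).2).trans
        (Finset.sum_le_sum_of_subset_of_nonneg (Finset.filter_subset _ _) fun B _ _ => ht0 B)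
    linarith

end Vale.P061.Transitive
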