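import Vale.Agent.P061.Transitive.Select

/-!
P061, vertex-transitive graphs: strong thin spanning trees.
-/

noncomputable section

namespace Vale.P061.Transitive

open Finset
open scoped Classical

variable {V : Type} [Fintype V] [Nonempty V] {G : SimpleGraph V}

lemma series_bound (L : ℕ) : ∑ i ∈ range L, (21 / 40 : ℝ) ^ i ≤ 40 / 19 := by
  rw [Finset.range_eq_Ico]
  refine (geom_sum_Ico_le_of_lt_one (by norm_num) (by norm_num)).trans ?_
  norm_num

lemma sum_contract (L : ℕ) (F a : ℕ → ℝ) (hF : ∀ i, 0 ≤ F i) (ha : ∀ i < L, 0 ≤ a i)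
    (h0 : F 0 = 0) (hstep : ∀ i < L, F (i + 1) ≤ 10 / 11 * (a i + F i)) :
    ∑ i ∈ range L, qq ^ i * F i ≤ 21 * ∑ i ∈ range L, qq ^ i * a i := by
  have hq : (0 : ℝ) ≤ qq := by norm_num [qq]
  rcases L with _ | n
  · simp
  have h1 : ∑ i ∈ range n, qq ^ (i + 1) * F (i + 1) ≤
      21 / 22 * ∑ i ∈ range (n + 1), (qq ^ i * a i + qq ^ i * F i) := by
    rw [Finset.mul_sum]
    refine (Finset.sum_le_sum fun i hi => ?_).trans (Finset.sum_le_sum_of_subset_of_nonneg
      (Finset.range_subset_range.2 (Nat.le_succ n)) fun i hi _ => ?_)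
    · have hi' : i < n + 1 := by simp at hi; omega
      calc qq ^ (i + 1) * F (i + 1) ≤ qq ^ (i + 1) * (10 / 11 * (a i + F i)) :=
            mul_le_mul_of_nonneg_left (hstep i hi') (pow_nonneg hq _)
        _ = _ := by rw [pow_succ]; simp only [qq]; ring
    · have := ha i (Finset.mem_range.1 hi)
      have := hF i
      positivity
  have h2 : ∑ i ∈ range (n + 1), qq ^ i * F i = ∑ i ∈ range n, qq ^ (i + 1) * F (i + 1) := by
    rw [Finset.sum_range_succ', h0, mul_zero, add_zero]
  rw [Finset.sum_add_distrib] at h1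
  linarith

/-- The crossing chosen edges are few. -/
lemma crossing_bound (ht : IsTrans G) (hk : 0 < degree G) {T : Finset (V × V)} (hT : Chosen ht T)
    (S : Finset V) :
    ((T.filter fun e => ¬(e.1 ∈ S ↔ e.2 ∈ S)).card : ℝ) ≤
      40000 * Lam * cutN G S / degree G := by
  set L := height ht
  set c : ℝ := ((cutN G S : ℕ) : ℝ) with hc
  set k : ℝ := ((degree G : ℕ) : ℝ) with hk'
  have hkpos : 0 < k := by rw [hk']; exact_mod_cast hk
  have hc0 : 0 ≤ c := by rw [hc]; positivity
  set F : ℕ → ℝ := fun i => err (lev ht i) S with hF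
  set a : ℕ → ℝ := fun i => c / ((lev ht i).size * kdeg (lev ht i) (lev ht (i + 1))) with ha
  have hL := Lam_pos
  have hq : ∀ i : ℕ, (1 : ℝ) ≤ qq ^ i := fun i => one_le_pow₀ (by norm_num [qq])
  set R : ℕ → Finset V := fun i =>
    (univ.image (lev ht (i + 1)).rep).filter (IsSplit (lev ht i) (lev ht (i + 1)) S) with hR
  set A : ℕ → Finset (V × V) := fun l => T.filter fun e =>
    e ∈ lvlSet ht l ∧ ¬(major (lev ht l) S e.1 ↔ major (lev ht l) S e.2) with hA
  set B : ℕ → Finset (V × V) := fun i => (R i).biUnion fun b => T.filter (AtBlock ht (i + 1) b)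
    with hB
  have hfind : ∀ e ∈ T, ∀ l < L, e ∈ lvlSet ht l → ∀ x, (x = e.1 ∨ x = e.2) →
      ¬(major (lev ht l) S x ↔ x ∈ S) → ∃ i < L, e ∈ B i := by
    intro e he l hl hel x hx hne
    have hchain : ∀ j, ¬(major (lev ht j) S x ↔ x ∈ S) →
        ∃ i < j, ¬(major (lev ht i) S x ↔ major (lev ht (i + 1)) S x) := by
      intro j
      induction j with
      | zero =>
        intro h
        have := diff_bot G S
        rw [diff, Finset.filter_eq_empty_iff] at this
        exact absurd h (this (Finset.mem_univ x))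
      | succ j ih =>
        intro h
        by_cases h' : major (lev ht j) S x ↔ major (lev ht (j + 1)) S x
        · obtain ⟨i, hi, hi'⟩ := ih fun h'' => h (h'.symm.trans h'')
          exact ⟨i, by omega, hi'⟩
        · exact ⟨j, by omega, h'⟩
    obtain ⟨i, hi, hi'⟩ := hchain l hne
    set Q := lev ht (i + 1)
    have hN := next_lt ht (show i < L by omega)
    have hsp : IsSplit (lev ht i) Q S (Q.rep x) := by
      by_contra hns
      exact hi' (major_of_not_split ht hN.coarse hns (Q.rel_rep x)).symm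
    refine ⟨i, by omega, Finset.mem_biUnion.2 ⟨Q.rep x, ?_, ?_⟩⟩
    · exact Finset.mem_filter.2 ⟨Finset.mem_image_of_mem _ (Finset.mem_univ x), hsp⟩
    · refine Finset.mem_filter.2 ⟨he, ?_, ?_⟩
      · rw [lvlOf_eq ht hl hel]; omega
      · rcases hx with rfl | rfl
        · exact Or.inl rfl
        · exact Or.inr rfl
  have hcover : (T.filter fun e => ¬(e.1 ∈ S ↔ e.2 ∈ S)) ⊆
      (range L).biUnion A ∪ (range L).biUnion B := by
    intro e he
    rw [Finset.mem_filter] at he
    obtain ⟨l, hl, hel⟩ := Finset.mem_biUnion.1 (hT.sub he.1)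
    rw [Finset.mem_range] at hl
    by_cases hm : major (lev ht l) S e.1 ↔ major (lev ht l) S e.2
    · refine Finset.mem_union_right _ ?_
      by_cases h1 : major (lev ht l) S e.1 ↔ e.1 ∈ S
      · obtain ⟨i, hi, hiB⟩ := hfind e he.1 l hl hel e.2 (Or.inr rfl) fun h2 =>
          he.2 (h1.symm.trans (hm.trans h2))
        exact Finset.mem_biUnion.2 ⟨i, Finset.mem_range.2 hi, hiB⟩
      · obtain ⟨i, hi, hiB⟩ := hfind e he.1 l hl hel e.1 (Or.inl rfl) h1
        exact Finset.mem_biUnion.2 ⟨i, Finset.mem_range.2 hi, hiB⟩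
    · exact Finset.mem_union_left _ (Finset.mem_biUnion.2
        ⟨l, Finset.mem_range.2 hl, Finset.mem_filter.2 ⟨he.1, hel, hm⟩⟩)
  have hmf : ∀ l < L, 2 / 25 * k * 2 ^ l ≤
      ((lev ht l).size : ℝ) * kdeg (lev ht l) (lev ht (l + 1)) := fun l hl => by
    have h := (next_lt ht hl).keep
    have h2 := load_growth ht hl
    have h3 := mul_le_mul_of_nonneg_left h (Nat.cast_nonneg (α := ℝ) (lev ht l).size)
    linarith
  have ha0 : ∀ i < L, 0 ≤ a i := fun i _ => by simp only [ha]; positivity
  have haq : ∀ i < L, qq ^ i * a i ≤ 25 / 2 * (c / k) * (21 / 40) ^ i := fun i hi => by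
    have hpos : (0 : ℝ) < 2 / 25 * k * 2 ^ i := by positivity
    calc qq ^ i * a i ≤ qq ^ i * (c / (2 / 25 * k * 2 ^ i)) :=
          mul_le_mul_of_nonneg_left (div_le_div_of_nonneg_left hc0 hpos (hmf i hi))
            (le_trans zero_le_one (hq i))
      _ = _ := by
          rw [show (21 / 40 : ℝ) = qq / 2 by norm_num [qq], div_pow]
          field_simp
  have hsumA : ∑ i ∈ range L, qq ^ i * a i ≤ 27 * (c / k) := by
    refine (Finset.sum_le_sum fun i hi => haq i (Finset.mem_range.1 hi)).trans ?_
    rw [← Finset.mul_sum]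
    have hck : 0 ≤ c / k := by positivity
    nlinarith [mul_le_mul_of_nonneg_left (series_bound L) hck]
  have hsumF : ∑ i ∈ range L, qq ^ i * F i ≤ 567 * (c / k) := by
    have h := sum_contract L F a (fun i => err_nonneg _ _) ha0
      (by simp [hF, err, show lev ht 0 = botPart G from rfl, diff_bot])
      fun i hi => (round_step ht (next_lt ht hi) (kdeg_pos ht hi) S).1
    linarith
  have hcardA : ∀ l < L, ((A l).card : ℝ) ≤ 8 * Lam * (c / load ht l + F l) := fun l hl => by
    set P := lev ht l
    set h : V → ℝ := fun u => if major P S u then 1 else 0 with hh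
    have hres : P.Resp h := fun x y hxy => by simp only [hh, major_resp P S x y hxy]
    have h1 : ((A l).card : ℝ) ≤ ∑ e ∈ T.filter (· ∈ lvlSet ht l), (h e.1 - h e.2) ^ 2 := by
      rw [hA, ← Finset.sum_boole, Finset.sum_filter]
      refine Finset.sum_le_sum fun e _ => ?_
      by_cases h1 : e ∈ lvlSet ht l <;> by_cases h2 : major P S e.1 <;>
        by_cases h3 : major P S e.2 <;> simp [hh, P, h1, h2, h3]
    have hE : energy G h = 2 * cutN G ({v | major P S v} : Finset V) := by
      set χ : V → V → ℝ := fun u v =>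
        if G.Adj u v ∧ major P S u ∧ ¬major P S v then 1 else 0 with hχ
      have e1 : (cutN G ({v | major P S v} : Finset V) : ℝ) = ∑ u, ∑ v, χ u v := by
        rw [← Fintype.sum_prod_type' (f := χ), cutN, hχ, Finset.sum_boole]
        congr 2
        ext p
        simp only [Finset.mem_filter, Finset.mem_product, Finset.mem_compl, Finset.mem_univ,
          true_and]
        exact ⟨fun h => ⟨h.2, h.1.1, h.1.2⟩, fun h => ⟨⟨h.2.1, h.2.2⟩, h.1⟩⟩
      have e2 : energy G h = ∑ u, ∑ v, (χ u v + χ v u) := by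
        refine Finset.sum_congr rfl fun u _ => Finset.sum_congr rfl fun v _ => ?_
        by_cases hu : major P S u <;> by_cases hv : major P S v <;> by_cases hA : G.Adj u v <;>
          simp [hχ, hh, hu, hv, hA, G.adj_comm v u]
      rw [e2, e1]
      simp only [Finset.sum_add_distrib]
      rw [Finset.sum_comm (f := fun u v => χ v u)]
      ring
    have h2 : (cutN G ({v | major P S v} : Finset V) : ℝ) ≤ c + P.ext * (diff P S).card := by
      rw [hc]; exact_mod_cast cut_major_le ht P S
    have hD := load_pos ht hl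
    have h3 : (P.ext : ℝ) * (diff P S).card = load ht l * F l := by
      simp only [hF, err, load, P]
      have : ((lev ht l).size : ℝ) ≠ 0 := by exact_mod_cast (lev ht l).size_pos.ne'
      field_simp
    calc ((A l).card : ℝ) ≤ 4 * Lam / load ht l * energy G h := h1.trans (hT.cuts l hl h hres)
      _ ≤ 4 * Lam / load ht l * (2 * (c + load ht l * F l)) := by
          refine mul_le_mul_of_nonneg_left ?_ (by positivity)
          rw [hE]; linarith
      _ = _ := by field_simp; ring
  have hload : ∀ l < L, c / load ht l ≤ 5 * (c / k) * (1 / 2) ^ l := fun l hl => by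
    have h := load_growth ht hl
    calc c / load ht l ≤ c / (k * 2 ^ l / 5) :=
          div_le_div_of_nonneg_left hc0 (by positivity) h
      _ = _ := by rw [one_div_pow]; field_simp
  have hcardB : ∀ i < L, ((B i).card : ℝ) ≤ 500 / 11 * qq * Lam * (qq ^ i * a i + qq ^ i * F i) :=
    fun i hi => by
    have h1 : ((B i).card : ℝ) ≤ (R i).card * (25 * Lam * qq ^ (i + 1)) := by
      rw [hB]
      refine (Nat.cast_le.2 Finset.card_biUnion_le).trans ?_
      rw [Nat.cast_sum, ← nsmul_eq_mul, ← Finset.sum_const]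
      exact Finset.sum_le_sum fun b _ => hT.deg_le (i + 1) (by omega) (by omega) b
    have h2 := (round_step ht (next_lt ht hi) (kdeg_pos ht hi) S).2
    have h3 : (0 : ℝ) ≤ 25 * Lam * qq ^ (i + 1) := by
      have := hq (i + 1); positivity
    calc ((B i).card : ℝ) ≤ 20 / 11 * (a i + F i) * (25 * Lam * qq ^ (i + 1)) :=
          h1.trans (mul_le_mul_of_nonneg_right h2 h3)
      _ = _ := by rw [pow_succ]; ring
  calc ((T.filter fun e => ¬(e.1 ∈ S ↔ e.2 ∈ S)).card : ℝ)
      ≤ ∑ l ∈ range L, ((A l).card : ℝ) + ∑ i ∈ range L, ((B i).card : ℝ) := by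
        refine (Nat.cast_le.2 ((Finset.card_le_card hcover).trans
          ((Finset.card_union_le _ _).trans (Nat.add_le_add Finset.card_biUnion_le
            Finset.card_biUnion_le)))).trans (le_of_eq ?_)
        push_cast
        rfl
    _ ≤ ∑ l ∈ range L, 8 * Lam * (5 * (c / k) * (1 / 2) ^ l + qq ^ l * F l) +
        ∑ i ∈ range L, 500 / 11 * qq * Lam * (qq ^ i * a i + qq ^ i * F i) := by
        refine add_le_add (Finset.sum_le_sum fun l hl => (hcardA l (Finset.mem_range.1 hl)).trans
          (mul_le_mul_of_nonneg_left (add_le_add (hload l (Finset.mem_range.1 hl))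
            (le_mul_of_one_le_left (err_nonneg _ _) (hq l))) (by positivity)))
          (Finset.sum_le_sum fun i hi => hcardB i (Finset.mem_range.1 hi))
    _ ≤ 8 * Lam * (10 * (c / k) + 567 * (c / k)) +
        500 / 11 * qq * Lam * (27 * (c / k) + 567 * (c / k)) := by
        simp only [← Finset.mul_sum, Finset.sum_add_distrib]
        have hck : 0 ≤ c / k := by positivity
        have hgeo : ∑ l ∈ range L, (1 / 2 : ℝ) ^ l ≤ 2 := sum_geometric_two_le L
        refine add_le_add (mul_le_mul_of_nonneg_left (add_le_add ?_ hsumF) (by positivity))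
          (mul_le_mul_of_nonneg_left (add_le_add hsumA hsumF) (by unfold qq; positivity))
        nlinarith [mul_le_mul_of_nonneg_left hgeo hck]
    _ ≤ 40000 * Lam * c / k := by
        rw [mul_div_assoc (40000 * (Lam : ℝ)), qq]
        have : (0 : ℝ) ≤ Lam * (c / k) := by positivity
        linarith

lemma chosen_connected (ht : IsTrans G) (hconn : G.Connected) {T : Finset (V × V)}
    (hT : Chosen ht T) : (SimpleGraph.fromRel fun u v => (u, v) ∈ T).Connected := by
  set H := SimpleGraph.fromRel fun u v => (u, v) ∈ T with hH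
  have key : ∀ l ≤ height ht, ∀ u v, (lev ht l).rel u v → H.Reachable u v := by
    intro l
    induction l with
    | zero => intro _ u v h; exact (show u = v from h) ▸ SimpleGraph.Reachable.refl _
    | succ l ih =>
      intro hl u v huv
      by_contra hno
      set Z : Finset V := ((lev ht (l + 1)).blk u).filter (H.Reachable u) with hZ
      have hmem : ∀ x, x ∈ Z ↔ (lev ht (l + 1)).rel u x ∧ H.Reachable u x := fun x => by
        simp [hZ, Part.blk]
      have hval : Valid (lev ht l) (lev ht (l + 1)) Z := by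
        refine ⟨fun x y hxy => ?_, u, v, ?_, ?_, huv, fun x hx => ?_⟩
        · have hr := ih (by omega) x y hxy
          have hq := lev_coarse ht l hxy
          rw [hmem, hmem]
          exact ⟨fun h => ⟨(lev ht (l + 1)).eqv.trans h.1 hq, h.2.trans hr⟩,
            fun h => ⟨(lev ht (l + 1)).eqv.trans h.1 ((lev ht (l + 1)).eqv.symm hq),
              h.2.trans hr.symm⟩⟩
        · exact (hmem u).2 ⟨(lev ht (l + 1)).eqv.refl u, SimpleGraph.Reachable.refl _⟩
        · exact fun h => hno ((hmem v).1 h).2
        · simp only [hZ, Finset.mem_filter] at hx; exact hx.1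
      obtain ⟨e, he, hel, hcross⟩ := hT.join l (by omega) Z hval
      have hk := mem_lvlSet.1 hel
      have hadj : H.Adj e.1 e.2 := by
        rw [hH, SimpleGraph.fromRel_adj]
        exact ⟨hk.1.1.1.ne, Or.inl he⟩
      refine hcross ?_
      rw [hmem, hmem]
      exact ⟨fun h => ⟨(lev ht (l + 1)).eqv.trans h.1 hk.2, h.2.trans hadj.reachable⟩,
        fun h => ⟨(lev ht (l + 1)).eqv.trans h.1 ((lev ht (l + 1)).eqv.symm hk.2),
          h.2.trans hadj.reachable.symm⟩⟩
  exact ⟨fun u v => key _ le_rfl u v (top_all ht hconn u v)⟩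

/-- Strong thin spanning trees in vertex-transitive graphs. -/
theorem thin_tree (hconn : G.Connected) (ht : IsTrans G) {k : ℕ}
    (hk : ∀ S : Finset V, S.Nonempty → S ≠ univ → k ≤ cutN G S) :
    ∃ T : SimpleGraph V, T ≤ G ∧ T.IsTree ∧ ∀ S : Finset V, S.Nonempty → S ≠ univ →
      k * cutN T S ≤ 40000 * Lam * cutN G S := by
  obtain ⟨T, hT⟩ := exists_chosen ht
  have hle : (SimpleGraph.fromRel fun u v => (u, v) ∈ T) ≤ G := by
    intro u v huv
    rw [SimpleGraph.fromRel_adj] at huv
    have key : ∀ a b, (a, b) ∈ T → G.Adj a b := fun a b h => by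
      obtain ⟨l, -, hl⟩ := Finset.mem_biUnion.1 (hT.sub h)
      exact (mem_lvlSet.1 hl).1.1.1
    exact huv.2.elim (key u v) fun h => (key v u h).symm
  obtain ⟨Tr, hTr, htree⟩ := (chosen_connected ht hconn hT).exists_isTree_le
  refine ⟨Tr, hTr.trans hle, htree, fun S hS hSu => ?_⟩
  obtain ⟨u, hu⟩ := hS
  obtain ⟨v, hv⟩ : ∃ v, v ∉ S := by
    by_contra h; push Not at h; exact hSu (Finset.eq_univ_iff_forall.2 h)
  have huv : u ≠ v := fun h => hv (h ▸ hu)
  have hdeg : k ≤ degree G := by
    refine (hk {u} (Finset.singleton_nonempty u) fun h => huv.symm ?_).trans ?_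
    · exact Finset.mem_singleton.1 (h ▸ Finset.mem_univ v)
    · rw [degree, deg_eq ht (fun φ a b => φ.map_rel_iff) _ u, cutN, Finset.card_filter,
        Finset.sum_product, Finset.sum_singleton, ← Finset.card_filter]
      exact Finset.card_le_card fun x hx => by
        simp only [Finset.mem_filter, Finset.mem_univ, true_and] at hx ⊢
        exact hx.2
  rcases Nat.eq_zero_or_pos k with rfl | hkpos
  · simp
  have hd : 0 < degree G := by omega
  have hle2 : (cutN Tr S : ℝ) ≤ ((T.filter fun e => ¬(e.1 ∈ S ↔ e.2 ∈ S)).card : ℕ) := by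
    refine Nat.cast_le.2 (Finset.card_le_card_of_injOn
      (fun p => if p ∈ T then p else (p.2, p.1)) ?_ ?_)
    · intro p hp
      simp only [Finset.mem_coe, Finset.mem_filter, Finset.mem_product, Finset.mem_compl] at hp
      have h := hTr hp.2
      rw [SimpleGraph.fromRel_adj] at h
      by_cases hpT : p ∈ T
      · simp [hpT, hp.1.1, hp.1.2]
      · have h' : (p.2, p.1) ∈ T := h.2.resolve_left hpT
        simp [hpT, h', hp.1.1, hp.1.2]
    · intro p hp q hq hpq
      simp only [Finset.mem_coe, Finset.mem_filter, Finset.mem_product, Finset.mem_compl] at hp hq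
      obtain ⟨p1, p2⟩ := p
      obtain ⟨q1, q2⟩ := q
      simp only at hpq
      split_ifs at hpq <;> simp_all
  have h := hle2.trans (crossing_bound ht hd hT S)
  rw [le_div_iff₀ (by exact_mod_cast hd)] at h
  have h' : (k : ℝ) * cutN Tr S ≤ ((40000 * Lam * cutN G S : ℕ) : ℝ) := by
    have h1 : (k : ℝ) ≤ degree G := by exact_mod_cast hdeg
    push_cast
    nlinarith [mul_le_mul_of_nonneg_right h1 (Nat.cast_nonneg (α := ℝ) (cutN Tr S))]
  exact_mod_cast h'

end Vale.P061.Transitive
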