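import Mathlib

/-!
P061, vertex-transitive graphs: invariant partitions, good pairs, and the average leverage.
-/

noncomputable section

namespace Vale.P061.Transitive

open Finset
open scoped Classical

variable {V : Type} [Fintype V] [Nonempty V] {G : SimpleGraph V}

/-- The automorphisms act transitively on the vertices. -/
def IsTrans (G : SimpleGraph V) : Prop := ∀ u v, ∃ φ : G ≃g G, φ u = v

/-- The degree of a relation at a vertex. -/
def deg (R : V → V → Prop) (u : V) : ℕ := #{v | R u v}

/-- A relation invariant under all automorphisms. -/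
def Inv (G : SimpleGraph V) (R : V → V → Prop) : Prop :=
  ∀ (φ : G ≃g G) (u v : V), R (φ u) (φ v) ↔ R u v

omit [Nonempty V] in
lemma deg_eq (ht : IsTrans G) {R : V → V → Prop} (hR : Inv G R) (u v : V) : deg R u = deg R v := by
  obtain ⟨φ, rfl⟩ := ht u v
  refine Finset.card_bij' (fun x _ => φ x) (fun x _ => φ.symm x) ?_ ?_ ?_ ?_
  · intro x hx
    rw [Finset.mem_filter] at hx ⊢
    exact ⟨Finset.mem_univ _, (hR φ u x).2 hx.2⟩
  · intro x hx
    rw [Finset.mem_filter] at hx ⊢
    refine ⟨Finset.mem_univ _, ?_⟩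
    rw [← hR φ, RelIso.apply_symm_apply]
    exact hx.2
  · simp
  · simp

/-- An invariant partition. -/
structure Part (G : SimpleGraph V) where
  rel : V → V → Prop
  eqv : Equivalence rel
  inv : Inv G rel

namespace Part

variable (P : Part G)

/-- The block of a vertex. -/
def blk (u : V) : Finset V := {v | P.rel u v}

/-- The setoid of the partition. -/
def setoid : Setoid V := ⟨P.rel, P.eqv⟩

/-- A representative of the block. -/
def rep (u : V) : V := (Quotient.mk P.setoid u).out

omit [Fintype V] [Nonempty V] in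
lemma rel_rep (u : V) : P.rel (P.rep u) u := Quotient.mk_out (s := P.setoid) u

omit [Fintype V] [Nonempty V] in
lemma rep_eq_iff {u v : V} : P.rep u = P.rep v ↔ P.rel u v := by
  constructor
  · intro h
    exact P.eqv.trans (P.eqv.symm (P.rel_rep u)) (h ▸ P.rel_rep v)
  · intro h
    unfold Part.rep
    rw [Quotient.sound (s := P.setoid) h]

omit [Fintype V] [Nonempty V] in
lemma rep_rep (u : V) : P.rep (P.rep u) = P.rep u := P.rep_eq_iff.2 (P.rel_rep u)

/-- The edges leaving the blocks. -/
def out (u v : V) : Prop := G.Adj u v ∧ ¬P.rel u v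

omit [Fintype V] [Nonempty V] in
lemma inv_out : Inv G P.out := fun φ u v => by
  unfold Part.out
  rw [P.inv φ u v, φ.map_rel_iff]

omit [Fintype V] [Nonempty V] in
lemma out_symm {u v : V} (h : P.out u v) : P.out v u :=
  ⟨h.1.symm, fun h' => h.2 (P.eqv.symm h')⟩

/-- The size of a block. -/
def size : ℕ := deg P.rel (Classical.arbitrary V)

/-- The number of neighbours outside the block. -/
def ext : ℕ := deg P.out (Classical.arbitrary V)

lemma card_blk (ht : IsTrans G) (u : V) : (P.blk u).card = P.size := deg_eq ht P.inv _ _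

lemma card_out (ht : IsTrans G) (u : V) : deg P.out u = P.ext := deg_eq ht P.inv_out _ _

lemma size_pos : 0 < P.size :=
  Finset.card_pos.2 ⟨Classical.arbitrary V, by simp [P.eqv.refl]⟩

lemma card_reps (ht : IsTrans G) : (univ.image P.rep).card * P.size = Fintype.card V := by
  rw [← Finset.card_univ, Finset.card_eq_sum_card_image P.rep univ, Finset.sum_const_nat]
  intro x hx
  obtain ⟨u, -, rfl⟩ := Finset.mem_image.1 hx
  rw [← P.card_blk ht u]
  congr 1
  ext v
  simp only [Part.blk, Finset.mem_filter, Finset.mem_univ, true_and, P.rep_eq_iff]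
  exact ⟨P.eqv.symm, P.eqv.symm⟩

/-- A function constant on the blocks. -/
def Resp {α : Type} (h : V → α) : Prop := ∀ x y, P.rel x y → h x = h y

omit [Fintype V] [Nonempty V] in
lemma resp_rep {α : Type} (h : V → α) : P.Resp fun x => h (P.rep x) := fun x y hxy => by
  simp only [P.rep_eq_iff.2 hxy]

omit [Fintype V] [Nonempty V] in
lemma resp_apply {α : Type} {h : V → α} (hh : P.Resp h) (x : V) : h (P.rep x) = h x :=
  hh _ _ (P.rel_rep x)

end Part

/-- The energy, summed over ordered pairs. -/
def energy (G : SimpleGraph V) (h : V → ℝ) : ℝ :=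
  ∑ u, ∑ v, if G.Adj u v then (h u - h v) ^ 2 else 0

omit [Nonempty V] in
lemma energy_nonneg (h : V → ℝ) : 0 ≤ energy G h :=
  Finset.sum_nonneg fun u _ => Finset.sum_nonneg fun v _ => by split_ifs <;> positivity

omit [Nonempty V] in
lemma energy_comp_iso (φ : G ≃g G) (h : V → ℝ) : energy G (fun x => h (φ x)) = energy G h := by
  unfold energy
  refine Fintype.sum_equiv φ.toEquiv _ _ fun u => Fintype.sum_equiv φ.toEquiv _ _ fun v => ?_
  by_cases hA : G.Adj u v
  · rw [if_pos hA, if_pos (show G.Adj (φ.toEquiv u) (φ.toEquiv v) from φ.map_rel_iff.2 hA)]; rfl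
  · rw [if_neg hA, if_neg (show ¬G.Adj (φ.toEquiv u) (φ.toEquiv v) from fun h' =>
      hA (φ.map_rel_iff.1 h'))]

/-- A pair of adjacent blocks with small effective resistance in the quotient. -/
def good (P : Part G) (u v : V) : Prop :=
  P.out u v ∧ ∀ h : V → ℝ, P.Resp h →
    (P.size * P.ext : ℝ) * (h u - h v) ^ 2 ≤ 20 * energy G h

lemma good_symm {P : Part G} {u v : V} (h : good P u v) : good P v u :=
  ⟨P.out_symm h.1, fun f hf => by rw [← neg_sub, neg_sq]; exact h.2 f hf⟩

lemma good_map (P : Part G) (φ : G ≃g G) {u v : V} (h : good P u v) : good P (φ u) (φ v) := by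
  refine ⟨(P.inv_out φ u v).2 h.1, fun f hf => ?_⟩
  rw [← energy_comp_iso φ f]
  exact h.2 (fun x => f (φ x)) fun x y hxy => hf _ _ ((P.inv φ x y).2 hxy)

lemma inv_good (P : Part G) : Inv G (good P) := fun φ u v => by
  refine ⟨fun h => ?_, good_map P φ⟩
  have := good_map P φ.symm h
  rwa [RelIso.symm_apply_apply, RelIso.symm_apply_apply] at this

/-- At every vertex at least `19/20` of the outgoing edges are good. -/
lemma good_many (ht : IsTrans G) (P : Part G) (u : V) : 19 * P.ext ≤ 20 * deg (good P) u := by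
  set N := univ.image P.rep with hN
  set L₀ : (N → ℝ) →ₗ[ℝ] (V × V → ℝ) := LinearMap.pi fun e =>
    if G.Adj e.1 e.2 then
      (LinearMap.proj (⟨P.rep e.1, Finset.mem_image_of_mem _ (Finset.mem_univ _)⟩ : N) :
          (N → ℝ) →ₗ[ℝ] ℝ) -
        (LinearMap.proj (⟨P.rep e.2, Finset.mem_image_of_mem _ (Finset.mem_univ _)⟩ : N) :
          (N → ℝ) →ₗ[ℝ] ℝ)
    else 0 with hL₀
  set L : (N → ℝ) →ₗ[ℝ] EuclideanSpace ℝ (V × V) :=
    (WithLp.linearEquiv 2 ℝ (V × V → ℝ)).symm.toLinearMap ∘ₗ L₀ with hL
  set K := LinearMap.range L with hK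
  set b := stdOrthonormalBasis ℝ K with hb
  set lev : V × V → ℝ := fun e => ∑ i, (b i : EuclideanSpace ℝ (V × V)) e ^ 2 with hlev
  have hlev0 : ∀ e, 0 ≤ lev e := fun e => Finset.sum_nonneg fun _ _ => sq_nonneg _
  have hsum : ∑ e, lev e ≤ N.card := by
    have h1 : ∑ e, lev e = Module.finrank ℝ K := by
      simp only [hlev]
      rw [Finset.sum_comm]
      have h : ∀ i, ∑ e, (b i : EuclideanSpace ℝ (V × V)) e ^ 2 = 1 := fun i => by
        rw [← EuclideanSpace.real_norm_sq_eq, Submodule.norm_coe, b.orthonormal.1 i, one_pow]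
      simp [h]
    rw [h1, Nat.cast_le]
    calc Module.finrank ℝ K ≤ Module.finrank ℝ (N → ℝ) := LinearMap.finrank_range_le L
      _ = N.card := by rw [Module.finrank_fintype_fun_eq_card, Fintype.card_coe]
  have hbound : ∀ x ∈ K, ∀ e, x e ^ 2 ≤ lev e * ‖x‖ ^ 2 := fun x hx e => by
    set xK : K := ⟨x, hx⟩
    have hx' : x = ∑ i, b.repr xK i • (b i : EuclideanSpace ℝ (V × V)) := by
      have := congrArg (fun y : K => (y : EuclideanSpace ℝ (V × V))) (b.sum_repr xK)
      simpa using this.symm
    have hn : ∑ i, b.repr xK i ^ 2 = ‖x‖ ^ 2 := by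
      rw [← EuclideanSpace.real_norm_sq_eq, b.repr.norm_map]
      rfl
    conv_lhs => rw [hx']
    rw [WithLp.ofLp_sum, Finset.sum_apply, mul_comm, ← hn]
    simp only [WithLp.ofLp_smul, Pi.smul_apply, smul_eq_mul]
    exact Finset.sum_mul_sq_le_sq_mul_sq _ _ _
  rcases Nat.eq_zero_or_pos P.ext with h0 | hpos
  · simp [h0]
  have hD : (0 : ℝ) < P.size * P.ext := by
    have := P.size_pos
    positivity
  have hbad : ∀ a c, P.out a c → ¬good P a c → 20 / (P.size * P.ext : ℝ) ≤ lev (a, c) := by
    intro a c hac hng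
    by_contra hlt
    push Not at hlt
    refine hng ⟨hac, fun h hh => ?_⟩
    set z : N → ℝ := fun x => h x.1 with hz
    have hval : ∀ e : V × V, L z e = if G.Adj e.1 e.2 then h e.1 - h e.2 else 0 := fun e => by
      by_cases hA : G.Adj e.1 e.2 <;> simp [hL, hL₀, hz, hA, P.resp_apply hh]
    have hnorm : ‖L z‖ ^ 2 = energy G h := by
      rw [EuclideanSpace.real_norm_sq_eq, Fintype.sum_prod_type]
      simp only [hval, energy, ite_pow, ne_eq, OfNat.ofNat_ne_zero, not_false_eq_true, zero_pow]
    have h1 := hbound (L z) ⟨z, rfl⟩ (a, c)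
    rw [hnorm, hval, if_pos hac.1] at h1
    calc (P.size * P.ext : ℝ) * (h a - h c) ^ 2
        ≤ (P.size * P.ext : ℝ) * (20 / (P.size * P.ext) * energy G h) :=
          mul_le_mul_of_nonneg_left (h1.trans (mul_le_mul_of_nonneg_right hlt.le
            (energy_nonneg h))) hD.le
      _ = 20 * energy G h := by
        rw [← mul_assoc, mul_div_cancel₀ _ hD.ne']
  set g := deg (good P) u with hg
  have hcount : ∀ a, (#{c | P.out a c ∧ ¬good P a c} : ℕ) + g = P.ext := fun a => by
    rw [hg, deg_eq ht (inv_good P) u a, ← P.card_out ht a]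
    unfold deg
    rw [← Finset.card_union_of_disjoint (Finset.disjoint_filter.2 fun c _ h h' => h.2 h')]
    congr 1
    ext c
    simp only [Finset.mem_union, Finset.mem_filter, Finset.mem_univ, true_and]
    exact ⟨fun h => h.elim And.left And.left,
      fun h => (em (good P a c)).elim Or.inr fun h' => Or.inl ⟨h, h'⟩⟩
  have htot : (Fintype.card V : ℝ) * ((P.ext : ℝ) - g) * (20 / (P.size * P.ext)) ≤ N.card := by
    refine le_trans ?_ hsum
    rw [Fintype.sum_prod_type]
    calc _ = ∑ _a : V, ((P.ext : ℝ) - g) * (20 / (P.size * P.ext)) := by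
          rw [Finset.sum_const, Finset.card_univ, nsmul_eq_mul, mul_assoc]
      _ ≤ _ := Finset.sum_le_sum fun a _ => by
          have h := hcount a
          rw [show (P.ext : ℝ) - g = (#{c | P.out a c ∧ ¬good P a c} : ℕ) by
            rw [← h]; push_cast; ring]
          rw [← nsmul_eq_mul, ← Finset.sum_const]
          exact (Finset.sum_le_sum fun c hc => hbad a c (Finset.mem_filter.1 hc).2.1
            (Finset.mem_filter.1 hc).2.2).trans (Finset.sum_le_univ_sum_of_nonneg fun c => hlev0 _)
  have hcard : (N.card : ℝ) * P.size = Fintype.card V := by exact_mod_cast P.card_reps ht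
  have hs : (0 : ℝ) < P.size := by exact_mod_cast P.size_pos
  have he : (0 : ℝ) < P.ext := by exact_mod_cast hpos
  have hNpos : (0 : ℝ) < N.card := by exact_mod_cast (Finset.univ_nonempty.image P.rep).card_pos
  rw [← hcard] at htot
  field_simp at htot
  have : (19 : ℝ) * P.ext ≤ 20 * g := by nlinarith
  exact_mod_cast this

end Vale.P061.Transitive
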