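import Vale.Agent.P061.Transitive.Coord

/-!
P061, vertex-transitive graphs: the chosen edges.
-/

noncomputable section

namespace Vale.P061.Transitive

open Finset
open scoped Classical

variable {V : Type} [Fintype V] [Nonempty V] {G : SimpleGraph V}

/-- An edge of a level at least `i` incident to the block of `b` at level `i`. -/
def AtBlock (ht : IsTrans G) (i : ℕ) (b : V) (e : V × V) : Prop :=
  i ≤ lvlOf ht e ∧ ((lev ht i).rep e.1 = b ∨ (lev ht i).rep e.2 = b)

/-- The properties of the chosen edges. -/
structure Chosen (ht : IsTrans G) (T : Finset (V × V)) : Prop where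
  sub : T ⊆ allEdges ht
  cuts : ∀ l < height ht, ∀ h : V → ℝ, (lev ht l).Resp h →
    ∑ e ∈ T.filter (· ∈ lvlSet ht l), (h e.1 - h e.2) ^ 2 ≤ 4 * Lam / load ht l * energy G h
  deg_le : ∀ i, 1 ≤ i → i ≤ height ht → ∀ b,
    ((T.filter (AtBlock ht i b)).card : ℝ) ≤ 25 * Lam * qq ^ i
  join : ∀ l < height ht, ∀ Z, Valid (lev ht l) (lev ht (l + 1)) Z →
    ∃ e ∈ T, e ∈ lvlSet ht l ∧ ¬(e.1 ∈ Z ↔ e.2 ∈ Z)

lemma count_at (ht : IsTrans G) (l i : ℕ) (b : V) :
    ((lvlSet ht l).filter fun e => (lev ht i).rep e.1 = b).card ≤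
      (lev ht i).size * kdeg (lev ht l) (lev ht (l + 1)) := by
  by_cases hb : ∃ u, (lev ht i).rep u = b
  swap
  · rw [Finset.filter_eq_empty_iff.2 fun e _ h => hb ⟨e.1, h⟩]
    simp
  obtain ⟨u, rfl⟩ := hb
  have h : ((lvlSet ht l).filter fun e => (lev ht i).rep e.1 = (lev ht i).rep u) =
      (((lev ht i).blk u) ×ˢ (univ : Finset V)).filter
        fun e => kept (lev ht l) (lev ht (l + 1)) e.1 e.2 := by
    ext e
    simp only [Finset.mem_filter, Finset.mem_product, lvlSet, Finset.mem_univ, and_true, true_and,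
      Part.blk, Part.rep_eq_iff]
    exact ⟨fun h => ⟨(lev ht i).eqv.symm h.2, h.1⟩, fun h => ⟨h.2, (lev ht i).eqv.symm h.1⟩⟩
  rw [h, Finset.card_filter, Finset.sum_product]
  refine le_of_eq ?_
  rw [← (lev ht i).card_blk ht u, ← smul_eq_mul, ← Finset.sum_const]
  exact Finset.sum_congr rfl fun a _ => by
    rw [← Finset.card_filter]; exact deg_eq ht (inv_kept _ _) a _

lemma count_at_snd (ht : IsTrans G) (l i : ℕ) (b : V) :
    ((lvlSet ht l).filter fun e => (lev ht i).rep e.2 = b).card ≤
      (lev ht i).size * kdeg (lev ht l) (lev ht (l + 1)) := by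
  refine le_trans (le_of_eq ?_) (count_at ht l i b)
  refine Finset.card_bij' (fun e _ => (e.2, e.1)) (fun e _ => (e.2, e.1)) ?_ ?_ ?_ ?_
  · intro e he
    simp only [Finset.mem_filter, mem_lvlSet] at he ⊢
    exact ⟨kept_symm he.1, he.2⟩
  · intro e he
    simp only [Finset.mem_filter, mem_lvlSet] at he ⊢
    exact ⟨kept_symm he.1, he.2⟩
  · simp
  · simp

lemma sum_all (ht : IsTrans G) (φ : V × V → ℝ) :
    ∑ e ∈ allEdges ht, φ e = ∑ l ∈ range (height ht), ∑ e ∈ lvlSet ht l, φ e := by
  refine Finset.sum_biUnion fun i _ j _ hij => Finset.disjoint_left.2 fun e h h' => hij ?_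
  exact lvl_unique ht h h'

/-- The edges can be chosen. -/
theorem exists_chosen (ht : IsTrans G) : ∃ T, Chosen ht T := by
  choose w hw hwl using exists_level_weights ht
  have hwl' : ∀ l, l < height ht → ∀ e ∈ lvlSet ht l, ∀ h,
      load ht l * (w l e * dif ht l e h ^ 2) ≤ 10 * kform ht w l h := hwl
  set τ : V × V → ℕ := fun e => rounds ht (lvlOf ht e) with hτ
  have hL := Lam_pos
  obtain ⟨T, hTE, hT⟩ := sample (allEdges ht) τ (vec ht w) (regv ht w) (a := 360 / Lam)
    (by positivity) (by unfold Lam σ0; norm_num) fun e he h1 z => lev_le ht hw hwl' he h1 z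
  set M0 := fun z => Sq (allEdges ht) (fun e => (1 / 2 : ℝ) ^ τ e) (vec ht w) z
  have hup : ∀ z, ∑ e ∈ T, vec ht w e z ^ 2 ≤ 3 / 2 * M0 z + 1 / 2 * Reg (regv ht w) z :=
    fun z => by linarith [(abs_le.1 (hT z)).2]
  have hlo : ∀ z, 1 / 2 * M0 z - 1 / 2 * Reg (regv ht w) z ≤ ∑ e ∈ T, vec ht w e z ^ 2 :=
    fun z => by linarith [(abs_le.1 (hT z)).1]
  have hM0 : ∀ z, M0 z = ∑ l ∈ range (height ht), rate ht l *
      ∑ e ∈ lvlSet ht l, vec ht w e z ^ 2 := fun z => by
    simp only [M0, Sq, sum_all ht, Finset.mul_sum]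
    refine Finset.sum_congr rfl fun l hl => Finset.sum_congr rfl fun e he => ?_
    simp only [hτ, rate, lvlOf_eq ht (Finset.mem_range.1 hl) he]
  refine ⟨T, hTE, fun l hl h hh => ?_, fun i hi1 hi b => ?_, fun l hl Z hZ => ?_⟩
  · set z : Joint V := (Pi.single l h, 0, 0) with hz
    have hv : ∀ e ∈ allEdges ht, vec ht w e z = if e ∈ lvlSet ht l then h e.1 - h e.2 else 0 := by
      intro e he
      obtain ⟨l', hl', hel⟩ := Finset.mem_biUnion.1 he
      rw [vec_apply, lvlOf_eq ht (Finset.mem_range.1 hl') hel]
      by_cases h' : l' = l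
      · subst h'
        simp [hz, hel, dif, (lev ht l').resp_apply hh]
      · have : e ∉ lvlSet ht l := fun hc => h' (lvl_unique ht hel hc)
        simp [hz, h', this, dif]
    have hreg : Reg (regv ht w) z = rate ht l * energy G h := by
      rw [reg_eq ht hw, Finset.sum_eq_single_of_mem l (Finset.mem_range.2 hl) fun j _ hj => by
        simp [hz, hj, energy]]
      simp [hz, (lev ht l).resp_apply hh, kform, dif]
    have hm : M0 z ≤ rate ht l * energy G h := by
      rw [hM0, Finset.sum_eq_single_of_mem l (Finset.mem_range.2 hl) fun j hj hjl => ?_]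
      · refine mul_le_mul_of_nonneg_left ?_ (rate_pos ht l).le
        calc ∑ e ∈ lvlSet ht l, vec ht w e z ^ 2 = ∑ e ∈ lvlSet ht l, (h e.1 - h e.2) ^ 2 :=
              Finset.sum_congr rfl fun e he => by
                rw [hv e (Finset.mem_biUnion.2 ⟨l, Finset.mem_range.2 hl, he⟩), if_pos he]
          _ = ∑ e ∈ lvlSet ht l, (if G.Adj e.1 e.2 then (h e.1 - h e.2) ^ 2 else 0) :=
              Finset.sum_congr rfl fun e he => by rw [if_pos (mem_lvlSet.1 he).1.1.1]
          _ ≤ ∑ e : V × V, (if G.Adj e.1 e.2 then (h e.1 - h e.2) ^ 2 else 0) :=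
              Finset.sum_le_univ_sum_of_nonneg fun e => by split_ifs <;> positivity
          _ = energy G h := by rw [Fintype.sum_prod_type]; rfl
      · refine mul_eq_zero_of_right _ (Finset.sum_eq_zero fun e he => ?_)
        rw [hv e (Finset.mem_biUnion.2 ⟨j, hj, he⟩), if_neg fun hc => hjl (lvl_unique ht he hc)]
        simp
    have h1 := hup z
    have h2 : ∑ e ∈ T.filter (· ∈ lvlSet ht l), (h e.1 - h e.2) ^ 2 ≤
        ∑ e ∈ T, vec ht w e z ^ 2 := by
      rw [Finset.sum_filter]
      refine Finset.sum_le_sum fun e he => ?_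
      rw [hv e (hTE he)]
      split_ifs <;> simp
    have hD := load_pos ht hl
    have h3 : 2 * rate ht l ≤ 4 * Lam / load ht l := by
      rw [le_div_iff₀ hD]; linarith [rate_le ht l]
    have h4 := mul_le_mul_of_nonneg_right h3 (energy_nonneg (G := G) h)
    linarith
  · set P := lev ht i
    set z : Joint V := (0, 0, Pi.single i (Pi.single b 1)) with hz
    set ind : V → ℝ := fun u => if P.rep u = b then 1 else 0 with hind
    have hv : ∀ e, vec ht w e z = if i ≤ lvlOf ht e then ind e.1 + ind e.2 else 0 := fun e => by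
      rw [vec_apply]
      simp only [hz, Pi.zero_apply, map_zero, mul_zero, zero_add]
      split_ifs with h
      · rw [Finset.sum_eq_single_of_mem i (Finset.mem_Icc.2 ⟨hi1, h⟩) fun j _ hj => by simp [hj]]
        simp [hind, Pi.single_apply, P]
      · refine Finset.sum_eq_zero fun j hj => ?_
        have : j ≠ i := fun hji => h (hji ▸ (Finset.mem_Icc.1 hj).2)
        simp [this]
    have hreg : Reg (regv ht w) z = Lam * qq ^ i := by
      rw [reg_eq ht hw, Finset.sum_eq_single_of_mem i (Finset.mem_range.2 (by omega : i < height ht + 1))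
        fun j _ hj => by simp [hz, hj]]
      simp [hz, energy, kform, dif, Pi.single_apply]
    have hm : M0 z ≤ 16 * Lam := by
      rw [hM0]
      have hterm : ∀ l ∈ range (height ht), rate ht l * ∑ e ∈ lvlSet ht l, vec ht w e z ^ 2 ≤
          if i ≤ l then 8 * Lam * (1 / 2 : ℝ) ^ (l - i) else 0 := by
        intro l hl
        rw [Finset.mem_range] at hl
        by_cases hil : i ≤ l
        swap
        · rw [if_neg hil]
          refine le_of_eq (mul_eq_zero_of_right _ (Finset.sum_eq_zero fun e he => ?_))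
          rw [hv, lvlOf_eq ht hl he, if_neg hil]
          simp
        rw [if_pos hil]
        set f : ℝ := ((kdeg (lev ht l) (lev ht (l + 1)) : ℕ) : ℝ)
        have hs : ∑ e ∈ lvlSet ht l, vec ht w e z ^ 2 ≤ 4 * (P.size * f) := by
          have h1 : ∀ e ∈ lvlSet ht l, vec ht w e z ^ 2 ≤ 2 * ind e.1 + 2 * ind e.2 := fun e he => by
            rw [hv, lvlOf_eq ht hl he, if_pos hil]
            simp only [hind]
            split_ifs <;> norm_num
          refine (Finset.sum_le_sum h1).trans ?_
          rw [Finset.sum_add_distrib, ← Finset.mul_sum, ← Finset.mul_sum]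
          simp only [hind, Finset.sum_boole]
          have a1 := (Nat.cast_le (α := ℝ)).2 (count_at ht l i b)
          have a2 := (Nat.cast_le (α := ℝ)).2 (count_at_snd ht l i b)
          push_cast at a1 a2
          simp only [P] at a1 a2 ⊢
          linarith
        have hf : f ≤ (lev ht l).ext := by
          simp only [f]
          have := (next_lt ht hl).ext_le
          exact Nat.cast_le.2 (by omega)
        have hg : (2 : ℝ) ^ (l - i) * P.size ≤ (lev ht l).size := by
          exact_mod_cast size_growth ht hil hl.le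
        have h2 : (P.size : ℝ) * f ≤ (1 / 2) ^ (l - i) * load ht l := by
          calc (P.size : ℝ) * f ≤ P.size * (lev ht l).ext := by gcongr
            _ = (1 / 2) ^ (l - i) * ((2 : ℝ) ^ (l - i) * P.size * (lev ht l).ext) := by
                rw [← mul_assoc, ← mul_assoc, ← mul_pow]; norm_num
            _ ≤ _ := by unfold load; gcongr
        have hr := rate_pos ht l
        calc rate ht l * ∑ e ∈ lvlSet ht l, vec ht w e z ^ 2
            ≤ rate ht l * (4 * ((1 / 2) ^ (l - i) * load ht l)) :=
              mul_le_mul_of_nonneg_left (hs.trans (by linarith)) hr.le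
          _ = 4 * (1 / 2) ^ (l - i) * (rate ht l * load ht l) := by ring
          _ ≤ 4 * (1 / 2) ^ (l - i) * (2 * Lam) :=
              mul_le_mul_of_nonneg_left (rate_le ht l) (by positivity)
          _ = _ := by ring
      refine (Finset.sum_le_sum hterm).trans ?_
      rw [← Finset.sum_filter, show (range (height ht)).filter (i ≤ ·) = Finset.Ico i (height ht) by
        ext x; simp [and_comm], ← Finset.mul_sum, Finset.sum_Ico_eq_sum_range]
      simp only [add_tsub_cancel_left]
      have := sum_geometric_two_le (height ht - i)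
      nlinarith
    have hq : (1 : ℝ) ≤ qq ^ i := one_le_pow₀ (by norm_num [qq])
    have h2 : ((T.filter (AtBlock ht i b)).card : ℝ) ≤ ∑ e ∈ T, vec ht w e z ^ 2 := by
      rw [← Finset.sum_boole]
      refine Finset.sum_le_sum fun e _ => ?_
      by_cases h : AtBlock ht i b e
      · rw [if_pos h, hv, if_pos h.1]
        rcases h.2 with h' | h' <;> simp only [hind, h', P, if_true] <;> split_ifs <;> norm_num
      · rw [if_neg h]; exact sq_nonneg _
    have := hup z
    nlinarith [mul_le_mul_of_nonneg_left hq hL.le]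
  · set P := lev ht l
    set h : V → ℝ := fun u => if u ∈ Z then 1 else 0 with hh
    have hres : P.Resp h := fun x y hxy => by simp only [hh, hZ.1 x y hxy]
    set z : Joint V := (0, Pi.single l h, 0) with hz
    have hv : ∀ e ∈ allEdges ht, vec ht w e z ^ 2 =
        if e ∈ lvlSet ht l then w l e * (h e.1 - h e.2) ^ 2 else 0 := by
      intro e he
      obtain ⟨l', hl', hel⟩ := Finset.mem_biUnion.1 he
      rw [vec_apply, lvlOf_eq ht (Finset.mem_range.1 hl') hel]
      by_cases h' : l' = l
      · subst h'
        simp [hz, hel, dif, mul_pow, Real.sq_sqrt (hw l' e).le, P, (lev ht l').resp_apply hres]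
      · have : e ∉ lvlSet ht l := fun hc => h' (lvl_unique ht hel hc)
        simp [hz, h', this, dif]
    have hk : kform ht w l h = ∑ e ∈ lvlSet ht l, w l e * (h e.1 - h e.2) ^ 2 := by
      unfold kform
      refine Finset.sum_congr rfl fun e _ => ?_
      simp [dif, P, (lev ht l).resp_apply hres]
    have hreg : Reg (regv ht w) z = rate ht l / 2 * kform ht w l h := by
      rw [reg_eq ht hw]
      rw [Finset.sum_eq_single_of_mem (f := fun j => rate ht j / 2 * kform ht w j (z.2.1 j)) l
        (Finset.mem_range.2 hl) fun j _ hj => by simp [hz, hj, kform, dif]]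
      simp [hz, energy]
    have hm : M0 z = rate ht l * kform ht w l h := by
      rw [hM0, Finset.sum_eq_single_of_mem l (Finset.mem_range.2 hl) fun j hj hjl => ?_, hk]
      · congr 1
        refine Finset.sum_congr rfl fun e he => ?_
        rw [hv e (Finset.mem_biUnion.2 ⟨l, Finset.mem_range.2 hl, he⟩), if_pos he]
      · refine mul_eq_zero_of_right _ (Finset.sum_eq_zero fun e he => ?_)
        rw [hv e (Finset.mem_biUnion.2 ⟨j, hj, he⟩), if_neg fun hc => hjl (lvl_unique ht he hc)]
    have hkpos : 0 < kform ht w l h := by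
      have hlv : 0 < leave P (lev ht (l + 1)) Z := by
        have h1 := (next_lt ht hl).split Z hZ
        have h2 : (0 : ℝ) < 11 / 20 * P.size * kdeg P (lev ht (l + 1)) := by
          have := P.size_pos
          have := kdeg_pos ht hl
          positivity
        exact_mod_cast h2.trans_le h1
      obtain ⟨p, hp⟩ := Finset.card_pos.1 hlv
      simp only [Finset.mem_filter, Finset.mem_product, Finset.mem_compl] at hp
      rw [hk]
      refine Finset.sum_pos' (fun e _ => mul_nonneg (hw l e).le (sq_nonneg _))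
        ⟨p, mem_lvlSet.2 hp.2, ?_⟩
      simp only [hh, if_pos hp.1.1, if_neg hp.1.2]
      have := hw l p
      linarith
    by_contra hno
    push Not at hno
    have h0 : ∑ e ∈ T, vec ht w e z ^ 2 = 0 := by
      refine Finset.sum_eq_zero fun e he => ?_
      rw [hv e (hTE he)]
      split_ifs with hel
      · simp only [hh, hno e he hel]; simp
      · rfl
    have := hlo z
    rw [hm, hreg, h0] at this
    nlinarith [mul_pos (rate_pos ht l) hkpos]

end Vale.P061.Transitive
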