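import Vale.Agent.P061.Transitive.Part

/-!
P061, vertex-transitive graphs: one step of the hierarchy, by atoms of small cuts.
-/

noncomputable section

namespace Vale.P061.Transitive

open Finset
open scoped Classical

variable {V : Type} [Fintype V] [Nonempty V] {G : SimpleGraph V}

/-- The good pairs inside the blocks of `Q`. -/
def kept (P Q : Part G) (u v : V) : Prop := good P u v ∧ Q.rel u v

lemma inv_kept (P Q : Part G) : Inv G (kept P Q) := fun φ u v => by
  unfold kept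
  rw [inv_good P φ u v, Q.inv φ u v]

lemma kept_symm {P Q : Part G} {u v : V} (h : kept P Q u v) : kept P Q v u :=
  ⟨good_symm h.1, Q.eqv.symm h.2⟩

/-- The kept degree. -/
def kdeg (P Q : Part G) : ℕ := deg (kept P Q) (Classical.arbitrary V)

/-- The kept edges leaving a set. -/
def leave (P Q : Part G) (Z : Finset V) : ℕ :=
  ((Z ×ˢ Zᶜ).filter fun p => kept P Q p.1 p.2).card

lemma leave_eq_sum (P Q : Part G) (Z : Finset V) :
    leave P Q Z = ∑ a ∈ Z, (#{c | kept P Q a c ∧ c ∉ Z} : ℕ) := by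
  unfold leave
  rw [Finset.card_filter, Finset.sum_product]
  refine Finset.sum_congr rfl fun a _ => ?_
  rw [← Finset.card_filter]
  congr 1
  ext c
  simp [and_comm]

/-- A set of `P`-blocks splitting a `Q`-block. -/
def Valid (P Q : Part G) (Z : Finset V) : Prop :=
  (∀ x y, P.rel x y → (x ∈ Z ↔ y ∈ Z)) ∧ ∃ u v, u ∈ Z ∧ v ∉ Z ∧ Q.rel u v ∧ Z ⊆ Q.blk u

lemma two_mul_size_le (ht : IsTrans G) {P Q : Part G} (hc : ∀ x y, P.rel x y → Q.rel x y)
    (h : P.size < Q.size) : 2 * P.size ≤ Q.size := by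
  have u := Classical.arbitrary V
  obtain ⟨v, hv, hvP⟩ := Finset.exists_mem_notMem_of_card_lt_card
    (show (P.blk u).card < (Q.blk u).card by rw [P.card_blk ht, Q.card_blk ht]; exact h)
  have hd : Disjoint (P.blk u) (P.blk v) := by
    refine Finset.disjoint_left.2 fun x hx hx' => hvP ?_
    simp only [Part.blk, Finset.mem_filter, Finset.mem_univ, true_and] at hx hx' ⊢
    exact P.eqv.trans hx (P.eqv.symm hx')
  calc 2 * P.size = (P.blk u ∪ P.blk v).card := by
        rw [Finset.card_union_of_disjoint hd, P.card_blk ht, P.card_blk ht, two_mul]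
    _ ≤ (Q.blk u).card := by
        refine Finset.card_le_card fun x hx => ?_
        simp only [Part.blk, Finset.mem_union, Finset.mem_filter, Finset.mem_univ, true_and] at hx hv ⊢
        exact hx.elim (hc _ _) fun h => Q.eqv.trans hv (hc _ _ h)
    _ = Q.size := Q.card_blk ht u

/-- The invariant of the splitting process. -/
structure State (P Q : Part G) : Prop where
  coarse : ∀ x y, P.rel x y → Q.rel x y
  lt : P.size < Q.size
  big : (deg (good P) (Classical.arbitrary V) : ℝ) * (1 - 11 / 10 * P.size / Q.size) ≤ kdeg P Q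

lemma kdeg_le (P Q : Part G) : kdeg P Q ≤ deg (good P) (Classical.arbitrary V) :=
  Finset.card_le_card fun x hx => by
    simp only [Finset.mem_filter, Finset.mem_univ, true_and] at hx ⊢
    exact hx.1

lemma deg_good_pos (ht : IsTrans G) {P : Part G} (h : 0 < P.ext) :
    0 < deg (good P) (Classical.arbitrary V) := by
  have := good_many ht P (Classical.arbitrary V)
  omega

lemma exists_state (ht : IsTrans G) {P : Part G} (h : 0 < P.ext) : ∃ Q, State P Q := by
  set R : V → V → Prop := fun x y => P.rel x y ∨ good P x y with hR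
  have hmap : ∀ (φ : G ≃g G) x y, Relation.EqvGen R x y → Relation.EqvGen R (φ x) (φ y) := by
    intro φ x y hxy
    induction hxy with
    | rel x y hxy => exact .rel _ _ (hxy.imp (P.inv φ x y).2 (good_map P φ))
    | refl x => exact .refl _
    | symm x y _ ih => exact ih.symm _ _
    | trans x y z _ _ ih ih' => exact ih.trans _ _ _ ih'
  set Q : Part G := ⟨Relation.EqvGen R, Relation.EqvGen.is_equivalence R, fun φ x y => ⟨fun h => by
    have := hmap φ.symm _ _ h
    rwa [RelIso.symm_apply_apply, RelIso.symm_apply_apply] at this, hmap φ x y⟩⟩ with hQ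
  set u := Classical.arbitrary V with hu
  have hk : kdeg P Q = deg (good P) u := by
    unfold kdeg deg
    congr 1
    ext v
    simp only [Finset.mem_filter, Finset.mem_univ, true_and, kept, and_iff_left_iff_imp, ← hu]
    exact fun hg => .rel _ _ (Or.inr hg)
  refine ⟨Q, fun x y hxy => .rel _ _ (Or.inl hxy), ?_, ?_⟩
  · obtain ⟨v, hv⟩ := Finset.card_pos.1 (deg_good_pos ht h)
    have hg := (Finset.mem_filter.1 hv).2
    refine Finset.card_lt_card ⟨fun x hx => ?_, fun hsub => hg.1.2 ?_⟩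
    · rw [Finset.mem_filter] at hx ⊢
      exact ⟨hx.1, .rel _ _ (Or.inl hx.2)⟩
    · exact (Finset.mem_filter.1 (hsub (Finset.mem_filter.2
        ⟨Finset.mem_univ _, (.rel _ _ (Or.inr hg) : Relation.EqvGen R _ v)⟩))).2
  · rw [hk]
    refine mul_le_of_le_one_right (Nat.cast_nonneg _) ?_
    linarith [show (0 : ℝ) ≤ 11 / 10 * P.size / Q.size by positivity]

/-- The result of one step. -/
structure Next (P Q : Part G) : Prop where
  coarse : ∀ x y, P.rel x y → Q.rel x y
  double : 2 * P.size ≤ Q.size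
  keep : (2 / 5 : ℝ) * P.ext ≤ kdeg P Q
  ext_le : Q.ext + kdeg P Q ≤ P.ext
  split : ∀ Z, Valid P Q Z → (11 / 20 : ℝ) * P.size * kdeg P Q ≤ leave P Q Z

lemma valid_sdiff {P Q : Part G} (hc : ∀ x y, P.rel x y → Q.rel x y) {Z : Finset V} {u v : V}
    (hresp : ∀ x y, P.rel x y → (x ∈ Z ↔ y ∈ Z)) (hu : u ∈ Z) (hv : v ∉ Z) (huv : Q.rel u v)
    (hsub : Z ⊆ Q.blk u) :
    Valid P Q (Q.blk u \ Z) ∧ leave P Q (Q.blk u \ Z) = leave P Q Z := by
  have hb : ∀ x, x ∈ Q.blk u ↔ Q.rel u x := fun x => by simp [Part.blk]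
  refine ⟨⟨fun x y hxy => ?_, v, u, ?_, ?_, Q.eqv.symm huv, fun x hx => ?_⟩, ?_⟩
  · have h1 : Q.rel u x ↔ Q.rel u y :=
      ⟨fun h => Q.eqv.trans h (hc _ _ hxy), fun h => Q.eqv.trans h (Q.eqv.symm (hc _ _ hxy))⟩
    simp only [Finset.mem_sdiff, hb, h1, hresp x y hxy]
  · simp [hb, huv, hv]
  · simp [hu]
  · simp only [Finset.mem_sdiff, hb] at hx
    simp only [Part.blk, Finset.mem_filter, Finset.mem_univ, true_and]
    exact Q.eqv.trans (Q.eqv.symm huv) hx.1
  · refine Finset.card_bij' (fun p _ => (p.2, p.1)) (fun p _ => (p.2, p.1)) ?_ ?_ ?_ ?_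
    · rintro ⟨a, c⟩ hp
      simp only [Finset.mem_filter, Finset.mem_product, Finset.mem_sdiff, Finset.mem_compl, hb,
        not_and, not_not] at hp ⊢
      obtain ⟨⟨⟨ha, haZ⟩, hcZ⟩, hk⟩ := hp
      exact ⟨⟨hcZ (Q.eqv.trans ha hk.2), haZ⟩, kept_symm hk⟩
    · rintro ⟨a, c⟩ hp
      simp only [Finset.mem_filter, Finset.mem_product, Finset.mem_sdiff, Finset.mem_compl, hb,
        not_and, not_not] at hp ⊢
      obtain ⟨⟨ha, hcZ⟩, hk⟩ := hp
      exact ⟨⟨⟨Q.eqv.trans ((hb a).1 (hsub ha)) hk.2, hcZ⟩, fun _ => ha⟩, kept_symm hk⟩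
    · simp
    · simp

lemma leave_submodular (P Q : Part G) (A B : Finset V) :
    leave P Q (A ∩ B) + leave P Q (A ∪ B) ≤ leave P Q A + leave P Q B := by
  have h : ∀ Z : Finset V, leave P Q Z =
      ∑ a, ∑ c, if (a ∈ Z ∧ c ∉ Z) ∧ kept P Q a c then 1 else 0 := fun Z => by
    rw [← Fintype.sum_prod_type' (f := fun a c => if (a ∈ Z ∧ c ∉ Z) ∧ kept P Q a c then 1 else 0),
      ← Finset.card_filter]
    unfold leave
    congr 1
    ext p
    simp
  simp only [h, ← Finset.sum_add_distrib]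
  refine Finset.sum_le_sum fun a _ => Finset.sum_le_sum fun c _ => ?_
  by_cases hk : kept P Q a c
  · by_cases a ∈ A <;> by_cases a ∈ B <;> by_cases c ∈ A <;> by_cases c ∈ B <;> simp [*]
  · simp [hk]

lemma valid_image {P Q : Part G} (φ : G ≃g G) {Z : Finset V} (hZ : Valid P Q Z) :
    Valid P Q (Z.map φ.toEquiv.toEmbedding) ∧
      leave P Q (Z.map φ.toEquiv.toEmbedding) = leave P Q Z := by
  obtain ⟨hresp, u, v, hu, hv, huv, hsub⟩ := hZ
  have hm : ∀ x, x ∈ Z.map φ.toEquiv.toEmbedding ↔ φ.symm x ∈ Z := fun x => Finset.mem_map_equiv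
  refine ⟨⟨fun x y hxy => ?_, φ u, φ v, ?_, ?_, (Q.inv φ u v).2 huv, fun x hx => ?_⟩, ?_⟩
  · rw [hm, hm]
    exact hresp _ _ ((P.inv φ.symm x y).2 hxy)
  · rw [hm, RelIso.symm_apply_apply]; exact hu
  · rw [hm, RelIso.symm_apply_apply]; exact hv
  · rw [hm] at hx
    have h := hsub hx
    simp only [Part.blk, Finset.mem_filter, Finset.mem_univ, true_and] at h ⊢
    have h' := (Q.inv φ u _).2 h
    rwa [RelIso.apply_symm_apply] at h'
  · refine Finset.card_bij' (fun p _ => (φ.symm p.1, φ.symm p.2)) (fun p _ => (φ p.1, φ p.2))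
      ?_ ?_ ?_ ?_
    · rintro ⟨a, c⟩ hp
      simp only [Finset.mem_filter, Finset.mem_product, Finset.mem_compl, hm] at hp ⊢
      exact ⟨hp.1, (inv_kept P Q φ.symm a c).2 hp.2⟩
    · rintro ⟨a, c⟩ hp
      simp only [Finset.mem_filter, Finset.mem_product, Finset.mem_compl, hm,
        RelIso.symm_apply_apply] at hp ⊢
      exact ⟨hp.1, (inv_kept P Q φ a c).2 hp.2⟩
    · simp
    · simp

lemma atom_unique (ht : IsTrans G) {P Q : Part G} {cmin amin : ℕ}
    (hmin : ∀ Z, Valid P Q Z → cmin ≤ leave P Q Z)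
    (hamin : ∀ Z, Valid P Q Z → leave P Q Z = cmin → amin ≤ Z.card) (hhalf : 2 * amin ≤ Q.size)
    {A B : Finset V} {x : V} (hA : Valid P Q A ∧ leave P Q A = cmin ∧ A.card = amin)
    (hB : Valid P Q B ∧ leave P Q B = cmin ∧ B.card = amin) (hxA : x ∈ A) (hxB : x ∈ B) :
    A = B := by
  obtain ⟨⟨hrA, uA, vA, huA, hvA, huvA, hsA⟩, hcA, hkA⟩ := hA
  obtain ⟨⟨hrB, uB, vB, huB, hvB, huvB, hsB⟩, hcB, hkB⟩ := hB
  by_contra hne
  have hblk : Q.blk uA = Q.blk uB := by
    have h1 := hsA hxA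
    have h2 := hsB hxB
    simp only [Part.blk, Finset.mem_filter, Finset.mem_univ, true_and] at h1 h2
    have h3 := Q.eqv.trans h1 (Q.eqv.symm h2)
    ext y
    simp only [Part.blk, Finset.mem_filter, Finset.mem_univ, true_and]
    exact ⟨fun h => Q.eqv.trans (Q.eqv.symm h3) h, fun h => Q.eqv.trans h3 h⟩
  have hIcard : (A ∩ B).card < amin := by
    rw [← hkA]
    refine Finset.card_lt_card (Finset.ssubset_iff_subset_ne.2 ⟨Finset.inter_subset_left, ?_⟩)
    intro h
    exact hne (Finset.eq_of_subset_of_card_le (Finset.inter_eq_left.1 h) (by rw [hkA, hkB]))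
  have hxA' : Q.rel uA x := by simpa [Part.blk] using hsA hxA
  have hI : Valid P Q (A ∩ B) := ⟨fun a b hab => by simp [hrA a b hab, hrB a b hab], x, vA,
    by simp [hxA, hxB], by simp [hvA], Q.eqv.trans (Q.eqv.symm hxA') huvA, fun y hy => by
      have hy' : Q.rel uA y := by simpa [Part.blk] using hsA (Finset.mem_inter.1 hy).1
      simpa [Part.blk] using Q.eqv.trans (Q.eqv.symm hxA') hy'⟩
  have hsU : A ∪ B ⊆ Q.blk uA := Finset.union_subset hsA (hblk ▸ hsB)
  by_cases hU : A ∪ B = Q.blk uA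
  · have h := Finset.card_union_add_card_inter A B
    rw [hU, Q.card_blk ht, hkA, hkB] at h
    have hpos : 0 < (A ∩ B).card := Finset.card_pos.2 ⟨x, by simp [hxA, hxB]⟩
    omega
  · obtain ⟨w, hw, hw'⟩ := Finset.exists_of_ssubset (Finset.ssubset_iff_subset_ne.2 ⟨hsU, hU⟩)
    have hUv : Valid P Q (A ∪ B) := ⟨fun a b hab => by simp [hrA a b hab, hrB a b hab], uA, w,
      Finset.mem_union_left _ huA, hw', by simpa [Part.blk] using hw, hsU⟩
    have h1 := hmin _ hUv
    have h2 := hmin _ hI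
    have h3 := leave_submodular P Q A B
    have h4 := hamin _ hI (by omega)
    omega

lemma loss_arith {g fQ fQ' m M a c : ℝ} (ha : 0 < a) (hM : 0 < M) (hm : 0 ≤ m) (h2 : 2 * a ≤ M)
    (hg : fQ ≤ g) (hg0 : 0 ≤ g) (hb : g * (1 - 11 / 10 * m / M) ≤ fQ)
    (hs : a * fQ = a * fQ' + c) (hc : c < 11 / 20 * m * fQ) :
    g * (1 - 11 / 10 * m / a) ≤ fQ' := by
  have h3 : 11 / 10 * m / M * a ≤ 11 / 20 * m := by
    rw [div_mul_eq_mul_div, div_le_iff₀ hM]
    nlinarith [mul_le_mul_of_nonneg_left h2 hm]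
  refine le_of_mul_le_mul_right ?_ ha
  have h4 : g * (1 - 11 / 10 * m / a) * a = g * a - 11 / 10 * g * m := by field_simp
  rw [h4]
  nlinarith [mul_le_mul_of_nonneg_right hb ha.le, mul_le_mul_of_nonneg_left h3 hg0,
    mul_le_mul_of_nonneg_left hg hm]

lemma refine_state (ht : IsTrans G) {P Q : Part G} (hS : State P Q) {Z₀ : Finset V}
    (hZ₀ : Valid P Q Z₀) (hbad : (leave P Q Z₀ : ℝ) < 11 / 20 * P.size * kdeg P Q) :
    ∃ Q', State P Q' ∧ Q'.size < Q.size := by
  obtain ⟨A₁, hA₁, hmin₁⟩ := Finset.exists_min_image (univ.filter (Valid P Q)) (leave P Q)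
    ⟨Z₀, by simpa using hZ₀⟩
  set cmin := leave P Q A₁
  have hmin : ∀ Z, Valid P Q Z → cmin ≤ leave P Q Z := fun Z hZ => hmin₁ Z (by simpa using hZ)
  obtain ⟨A₀, hA₀, hamin₀⟩ := Finset.exists_min_image
    (univ.filter fun Z => Valid P Q Z ∧ leave P Q Z = cmin) Finset.card
    ⟨A₁, Finset.mem_filter.2 ⟨Finset.mem_univ _, (Finset.mem_filter.1 hA₁).2, rfl⟩⟩
  set Atom : Finset V → Prop := fun Z => Valid P Q Z ∧ leave P Q Z = cmin ∧ Z.card = A₀.card
    with hAtom
  have hamin : ∀ Z, Valid P Q Z → leave P Q Z = cmin → A₀.card ≤ Z.card := fun Z h h' =>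
    hamin₀ Z (by simp [h, h'])
  simp only [Finset.mem_filter, Finset.mem_univ, true_and] at hA₀
  have hhalf : 2 * A₀.card ≤ Q.size := by
    obtain ⟨⟨hresp, u, v, hu, hv, huv, hsub⟩, hc⟩ := hA₀
    obtain ⟨h1, h2⟩ := valid_sdiff hS.coarse hresp hu hv huv hsub
    have h3 := hamin _ h1 (h2.trans hc)
    rw [Finset.card_sdiff_of_subset hsub, Q.card_blk ht] at h3
    have := Finset.card_le_card hsub
    rw [Q.card_blk ht] at this
    omega
  have huniq : ∀ A B x, Atom A → Atom B → x ∈ A → x ∈ B → A = B := fun A B x hA hB hxA hxB =>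
    atom_unique ht hmin hamin hhalf hA hB hxA hxB
  have hcover : ∀ x, ∃ A, Atom A ∧ x ∈ A := fun x => by
    obtain ⟨hv₀, hc₀⟩ := hA₀
    obtain ⟨u, -, hu, -⟩ := hv₀.2
    obtain ⟨φ, rfl⟩ := ht u x
    exact ⟨A₀.map φ.toEquiv.toEmbedding,
      ⟨(valid_image φ hv₀).1, (valid_image φ hv₀).2.trans hc₀, Finset.card_map _⟩,
      Finset.mem_map_of_mem _ hu⟩
  have hmapA : ∀ (φ : G ≃g G) (x y : V), (∃ A, Atom A ∧ x ∈ A ∧ y ∈ A) →
      ∃ A, Atom A ∧ φ x ∈ A ∧ φ y ∈ A := by
    rintro φ x y ⟨A, ⟨hv, hc, hk⟩, hx, hy⟩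
    exact ⟨A.map φ.toEquiv.toEmbedding,
      ⟨(valid_image φ hv).1, (valid_image φ hv).2.trans hc, (Finset.card_map _).trans hk⟩,
      Finset.mem_map_of_mem _ hx, Finset.mem_map_of_mem _ hy⟩
  set Q' : Part G :=
    { rel := fun x y => ∃ A, Atom A ∧ x ∈ A ∧ y ∈ A
      eqv := ⟨fun x => (hcover x).imp fun A h => ⟨h.1, h.2, h.2⟩,
        fun ⟨A, h, hx, hy⟩ => ⟨A, h, hy, hx⟩,
        fun ⟨A, h, hx, hy⟩ ⟨B, h', hy', hz⟩ => ⟨A, h, hx, huniq A B _ h h' hy hy' ▸ hz⟩⟩
      inv := fun φ x y => ⟨fun h => by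
        have := hmapA φ.symm _ _ h
        simpa using this, hmapA φ x y⟩ } with hQ'
  have hcoarse : ∀ x y, P.rel x y → Q'.rel x y := fun x y hxy => by
    obtain ⟨A, hA, hx⟩ := hcover x
    exact ⟨A, hA, hx, (hA.1.1 x y hxy).1 hx⟩
  set u₀ := Classical.arbitrary V with hu₀
  obtain ⟨A, hA, huA⟩ := hcover u₀
  have hblk' : Q'.blk u₀ = A := by
    ext y
    simp only [Part.blk, Finset.mem_filter, Finset.mem_univ, true_and, hQ']
    exact ⟨fun ⟨B, hB, h1, h2⟩ => huniq B A u₀ hB hA h1 huA ▸ h2, fun h => ⟨A, hA, huA, h⟩⟩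
  have hsize' : Q'.size = A₀.card := by rw [← Q'.card_blk ht u₀, hblk']; exact hA.2.2
  have hQQ' : ∀ a ∈ A, ∀ c, Q'.rel a c ↔ c ∈ A := fun a ha c =>
    ⟨fun ⟨B, hB, h1, h2⟩ => huniq B A a hB hA h1 ha ▸ h2, fun h => ⟨A, hA, ha, h⟩⟩
  have hAQ : ∀ a ∈ A, ∀ c ∈ A, Q.rel a c := fun a ha c hc => by
    obtain ⟨-, u, -, -, -, -, hs⟩ := hA.1
    have h1 := hs ha
    have h2 := hs hc
    simp only [Part.blk, Finset.mem_filter, Finset.mem_univ, true_and] at h1 h2
    exact Q.eqv.trans (Q.eqv.symm h1) h2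
  have hsum : A.card * kdeg P Q = A.card * kdeg P Q' + cmin := by
    rw [← hA.2.1, leave_eq_sum, ← smul_eq_mul, ← smul_eq_mul, ← Finset.sum_const,
      ← Finset.sum_const, ← Finset.sum_add_distrib]
    refine Finset.sum_congr rfl fun a ha => ?_
    unfold kdeg
    rw [deg_eq ht (inv_kept P Q) _ a, deg_eq ht (inv_kept P Q') _ a]
    unfold deg
    rw [← Finset.card_union_of_disjoint (Finset.disjoint_filter.2 fun c _ h h' =>
      h'.2 ((hQQ' a ha c).1 h.2))]
    congr 1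
    ext c
    simp only [Finset.mem_union, Finset.mem_filter, Finset.mem_univ, true_and]
    simp only [kept, hQQ' a ha c]
    by_cases hc : c ∈ A
    · simp [hc, hAQ a ha c hc]
    · simp [hc]
  have hf0 : (0 : ℝ) ≤ kdeg P Q := Nat.cast_nonneg _
  have hbadc : (cmin : ℝ) < 11 / 20 * P.size * kdeg P Q :=
    lt_of_le_of_lt (by exact_mod_cast hmin _ hZ₀) hbad
  have hlt : P.size < Q'.size := by
    by_contra hle
    have hPA : P.blk u₀ = A := Finset.eq_of_subset_of_card_le (fun y hy => by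
      rw [← hblk']
      simp only [Part.blk, Finset.mem_filter, Finset.mem_univ, true_and] at hy ⊢
      exact hcoarse _ _ hy) (by rw [← hblk', Q'.card_blk ht, P.card_blk ht]; omega)
    have h0 : kdeg P Q' = 0 := by
      unfold kdeg deg
      rw [Finset.card_eq_zero, Finset.filter_eq_empty_iff]
      intro c _ hk
      have h := (hQQ' u₀ huA c).1 hk.2
      rw [← hPA] at h
      exact hk.1.1.2 (Finset.mem_filter.1 h).2
    rw [h0, mul_zero, zero_add, ← hPA, P.card_blk ht] at hsum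
    rw [← hsum] at hbadc
    push_cast at hbadc
    nlinarith [mul_nonneg (Nat.cast_nonneg (α := ℝ) P.size) hf0]
  refine ⟨Q', ⟨hcoarse, hlt, ?_⟩, ?_⟩
  · rw [show Q'.size = A.card by rw [hsize', hA.2.2]]
    exact loss_arith (Nat.cast_pos.2 (Finset.card_pos.2 ⟨u₀, huA⟩))
      (Nat.cast_pos.2 Q.size_pos) (Nat.cast_nonneg _)
      (by exact_mod_cast hA.2.2.symm ▸ hhalf) (Nat.cast_le.2 (kdeg_le P Q)) (Nat.cast_nonneg _)
      hS.big (by exact_mod_cast hsum) hbadc
  · have hpos : 0 < A₀.card := by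
      obtain ⟨u, -, hu, -⟩ := hA₀.1.2
      exact Finset.card_pos.2 ⟨u, hu⟩
    omega

/-- One step of the hierarchy. -/
theorem exists_next (ht : IsTrans G) {P : Part G} (h : 0 < P.ext) : ∃ Q, Next P Q := by
  have hex : ∃ n, ∃ Q, State P Q ∧ Q.size = n := by
    obtain ⟨Q, hQ⟩ := exists_state ht h
    exact ⟨_, Q, hQ, rfl⟩
  obtain ⟨Q, hS, hn⟩ := Nat.find_spec hex
  have hd := two_mul_size_le ht hS.coarse hS.lt
  refine ⟨Q, hS.coarse, hd, ?_, ?_, fun Z hZ => ?_⟩
  · have hb := hS.big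
    set g : ℝ := ((deg (good P) (Classical.arbitrary V) : ℕ) : ℝ)
    have hg : (19 : ℝ) * P.ext ≤ 20 * g := by
      have h' := (Nat.cast_le (α := ℝ)).2 (good_many ht P (Classical.arbitrary V))
      push_cast at h'
      exact h'
    have hQs : (0 : ℝ) < Q.size := by exact_mod_cast Q.size_pos
    have h3 : 11 / 10 * (P.size : ℝ) / Q.size ≤ 11 / 20 := by
      rw [div_le_iff₀ hQs]
      have : (2 : ℝ) * P.size ≤ Q.size := by exact_mod_cast hd
      linarith
    have hg0 : 0 ≤ g := by positivity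
    nlinarith [mul_le_mul_of_nonneg_left h3 hg0]
  · rw [← Q.card_out ht (Classical.arbitrary V), ← P.card_out ht (Classical.arbitrary V)]
    unfold kdeg deg
    rw [← Finset.card_union_of_disjoint (Finset.disjoint_filter.2 fun c _ h h' => h.2 h'.2)]
    refine Finset.card_le_card fun c hc => ?_
    simp only [Finset.mem_union, Finset.mem_filter, Finset.mem_univ, true_and] at hc ⊢
    exact hc.elim (fun h => ⟨h.1, fun h' => h.2 (hS.coarse _ _ h')⟩) fun h => h.1.1
  · by_contra hlt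
    push Not at hlt
    obtain ⟨Q', hS', hsz⟩ := refine_state ht hS hZ hlt
    exact Nat.find_min hex (show Q'.size < Nat.find hex by omega) ⟨Q', hS', rfl⟩

end Vale.P061.Transitive
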